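import Mathlib

namespace Vale.Agent.P252

open MeasureTheory Set Filter Topology intervalIntegral
open scoped ContDiff

/-- Weighted averaging operator. -/
noncomputable def avg (c : ℝ) (g : ℝ → ℝ) (s : ℝ) : ℝ := ∫ σ in (0:ℝ)..1, σ ^ c * g (σ * s)

lemma avg_continuous {c : ℝ} (hc : 0 ≤ c) {g : ℝ → ℝ} (hg : Continuous g) :
    Continuous (avg c g) := by
  apply continuous_parametric_intervalIntegral_of_continuous' (μ := volume)
  exact ((Real.continuous_rpow_const hc).comp continuous_snd).mul
    (hg.comp (continuous_snd.mul continuous_fst))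

lemma hasDerivAt_avg {c : ℝ} (hc : 0 ≤ c) {g : ℝ → ℝ} (hg : ContDiff ℝ 1 g) (s : ℝ) :
    HasDerivAt (avg c g) (avg (c + 1) (deriv g) s) s := by
  obtain ⟨hd, -, hdc⟩ := (contDiff_succ_iff_deriv (n := 0)).1 (by simpa using hg)
  have hd' : Continuous (deriv g) := hdc.continuous
  obtain ⟨M, hM⟩ := (isCompact_Icc (a := -(|s| + 1)) (b := |s| + 1)).exists_bound_of_continuousOn
    hd'.continuousOn
  have hp : Continuous fun σ : ℝ => σ ^ c := Real.continuous_rpow_const hc
  have hpp : Continuous fun σ : ℝ => σ ^ (c + 1) := Real.continuous_rpow_const (by linarith)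
  refine (intervalIntegral.hasDerivAt_integral_of_dominated_loc_of_deriv_le
    (F := fun x σ => σ ^ c * g (σ * x)) (F' := fun x σ => σ ^ (c+1) * deriv g (σ * x))
    (bound := fun _ => M) (Metric.ball_mem_nhds s one_pos) ?_ ?_ ?_ ?_ ?_ ?_).2
  · exact Eventually.of_forall fun x =>
      (hp.mul (hg.continuous.comp (continuous_id.mul continuous_const))).aestronglyMeasurable
  · exact (hp.mul (hg.continuous.comp (continuous_id.mul continuous_const))).intervalIntegrable _ _
  · exact (hpp.mul (hd'.comp (continuous_id.mul continuous_const))).aestronglyMeasurable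
  · refine Eventually.of_forall fun σ hσ x hx => ?_
    rw [uIoc_of_le zero_le_one] at hσ
    rw [norm_mul, Real.norm_eq_abs, abs_of_nonneg (Real.rpow_nonneg hσ.1.le _)]
    have hx1 : |x| ≤ |s| + 1 := by
      rw [Metric.mem_ball, Real.dist_eq] at hx
      have := abs_add_le (x - s) s; simp at this; linarith
    have hmem : σ * x ∈ Icc (-(|s| + 1)) (|s| + 1) := by
      apply abs_le.1
      rw [abs_mul, abs_of_pos hσ.1]
      calc σ * |x| ≤ 1 * |x| := by gcongr; exact hσ.2
        _ ≤ |s| + 1 := by simpa using hx1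
    calc σ ^ (c+1) * ‖deriv g (σ * x)‖ ≤ 1 * M :=
          mul_le_mul (Real.rpow_le_one hσ.1.le hσ.2 (by linarith)) (hM _ hmem) (norm_nonneg _)
            zero_le_one
      _ = M := one_mul M
  · exact intervalIntegrable_const
  · refine Eventually.of_forall fun σ hσ x _ => ?_
    rw [uIoc_of_le zero_le_one] at hσ
    have h1 : HasDerivAt (fun x => σ * x) σ x := by simpa using (hasDerivAt_id x).const_mul σ
    have h2 := ((hd (σ * x)).hasDerivAt.comp x h1).const_mul (σ ^ c)
    refine h2.congr_deriv ?_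
    rw [Real.rpow_add hσ.1, Real.rpow_one]; ring

lemma contDiff_avg (j : ℕ) : ∀ {c : ℝ}, 0 ≤ c → ∀ {g : ℝ → ℝ}, ContDiff ℝ j g →
    ContDiff ℝ j (avg c g) := by
  induction j with
  | zero =>
    intro c hc g hg
    exact contDiff_zero.2 (avg_continuous hc (contDiff_zero.1 hg))
  | succ j ih =>
    intro c hc g hg
    have hg' := hg
    rw [Nat.cast_succ, contDiff_succ_iff_deriv] at hg'
    have hg1 : ContDiff ℝ 1 g := hg.of_le (by exact_mod_cast Nat.succ_pos j)
    rw [Nat.cast_succ, contDiff_succ_iff_deriv]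
    refine ⟨fun s => (hasDerivAt_avg hc hg1 s).differentiableAt, ?_, ?_⟩
    · intro h; exact absurd h (by simp)
    · have hdd : deriv (avg c g) = avg (c + 1) (deriv g) :=
        funext fun s => (hasDerivAt_avg hc hg1 s).deriv
      rw [hdd]; exact ih (by linarith) hg'.2.2

lemma mul_avg_zero (g : ℝ → ℝ) (s : ℝ) : s * avg 0 g s = ∫ t in (0:ℝ)..s, g t := by
  simp [avg, intervalIntegral.mul_integral_comp_mul_right]

lemma hasDerivAt_mul_avg {c : ℝ} (hc : 1 ≤ c) {g : ℝ → ℝ} (hg : Continuous g) (s : ℝ) :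
    HasDerivAt (fun s => s * avg c g s) (g s - c * avg c g s) s := by
  set P : ℝ → ℝ := fun x => ∫ t in (0:ℝ)..x, g t with hP
  have hPd : ∀ x, HasDerivAt P (g x) x := fun x => (hg.integral_hasStrictDerivAt 0 x).hasDerivAt
  have hPderiv : deriv P = g := funext fun x => (hPd x).deriv
  have hP1 : ContDiff ℝ 1 P := contDiff_one_iff_deriv.2
    ⟨fun x => (hPd x).differentiableAt, by rw [hPderiv]; exact hg⟩
  have hPc : Continuous P := hP1.continuous
  have key : ∀ x, x * avg c g x = P x - c * avg (c - 1) P x := by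
    intro x
    have hu : ∀ σ ∈ uIcc (0:ℝ) 1, HasDerivAt (fun σ : ℝ => σ ^ c) (c * σ ^ (c-1)) σ :=
      fun σ _ => Real.hasDerivAt_rpow_const (Or.inr hc)
    have hv : ∀ σ ∈ uIcc (0:ℝ) 1, HasDerivAt (fun σ => P (σ * x)) (g (σ * x) * x) σ := by
      intro σ _
      simpa using! (hPd (σ * x)).comp σ ((hasDerivAt_id σ).mul_const x)
    have hu' : IntervalIntegrable (fun σ : ℝ => c * σ ^ (c-1)) volume 0 1 :=
      (continuous_const.mul (Real.continuous_rpow_const (by linarith))).intervalIntegrable _ _
    have hv' : IntervalIntegrable (fun σ => g (σ * x) * x) volume 0 1 :=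
      ((hg.comp (continuous_id.mul continuous_const)).mul continuous_const).intervalIntegrable _ _
    have h := intervalIntegral.integral_mul_deriv_eq_deriv_mul hu hv hu' hv'
    simp only [Real.one_rpow, Real.zero_rpow (by linarith : c ≠ 0), one_mul, zero_mul,
      sub_zero] at h
    have e1 : (∫ σ in (0:ℝ)..1, σ ^ c * (g (σ * x) * x)) = x * avg c g x := by
      rw [avg, ← intervalIntegral.integral_const_mul]; congr 1; funext σ; ring
    have e2 : (∫ σ in (0:ℝ)..1, c * σ ^ (c-1) * P (σ * x)) = c * avg (c-1) P x := by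
      rw [avg, ← intervalIntegral.integral_const_mul]; congr 1; funext σ; ring
    rw [← e1, h, e2]
  have hfun : (fun s => s * avg c g s) = fun x => P x - c * avg (c-1) P x := funext key
  rw [hfun]
  have h2 := hasDerivAt_avg (c := c - 1) (by linarith) hP1 s
  rw [sub_add_cancel, hPderiv] at h2
  exact (hPd s).sub (h2.const_mul c)

end Vale.Agent.P252
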