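import Mathlib

namespace Vale.Agent.P252

open Matrix

variable {k : ℕ}

/-- Block matrix `[[a I + b v vᵀ, m v], [m vᵀ, e]]`. -/
noncomputable def blk (v : Fin k → ℝ) (a b m e : ℝ) : Matrix (Fin (k+1)) (Fin (k+1)) ℝ :=
  Matrix.of fun i j =>
    Fin.lastCases (Fin.lastCases e (fun j' => m * v j') j)
      (fun i' => Fin.lastCases (m * v i')
        (fun j' => (if i' = j' then a else 0) + b * (v i' * v j')) j) i

lemma blk_cc (v : Fin k → ℝ) (a b m e : ℝ) (i j : Fin k) :
    blk v a b m e i.castSucc j.castSucc = (if i = j then a else 0) + b * (v i * v j) := by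
  simp [blk]

lemma blk_cl (v : Fin k → ℝ) (a b m e : ℝ) (i : Fin k) :
    blk v a b m e i.castSucc (Fin.last k) = m * v i := by simp [blk]

lemma blk_lc (v : Fin k → ℝ) (a b m e : ℝ) (j : Fin k) :
    blk v a b m e (Fin.last k) j.castSucc = m * v j := by simp [blk]

lemma blk_ll (v : Fin k → ℝ) (a b m e : ℝ) :
    blk v a b m e (Fin.last k) (Fin.last k) = e := by simp [blk]

lemma sum_mul_left (v : Fin k → ℝ) (a b : ℝ) (f : Fin k → ℝ) (i : Fin k) :
    ∑ l, ((if i = l then a else 0) + b * (v i * v l)) * f l =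
      a * f i + b * v i * ∑ l, v l * f l := by
  simp only [add_mul, Finset.sum_add_distrib, ite_mul, zero_mul, Finset.sum_ite_eq,
    Finset.mem_univ, if_true, Finset.mul_sum]
  congr 1
  exact Finset.sum_congr rfl fun l _ => by ring

lemma blk_mul_one (v : Fin k → ℝ) {s a b m e a' b' m' e' : ℝ} (hs : ∑ i, v i ^ 2 = s)
    (h1 : a * a' = 1) (h2 : a * b' + b * a' + s * b * b' + m * m' = 0)
    (h3 : a * m' + s * b * m' + m * e' = 0) (h4 : m * a' + s * m * b' + e * m' = 0)
    (h5 : s * m * m' + e * e' = 1) : blk v a b m e * blk v a' b' m' e' = 1 := by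
  have hvv : ∀ c : ℝ, ∑ l, v l * (c * v l) = c * s := fun c => by
    rw [← hs, Finset.mul_sum]; exact Finset.sum_congr rfl fun l _ => by ring
  have hδ : ∀ j : Fin k,
      ∑ l, v l * ((if l = j then a' else 0) + b' * (v l * v j)) = a' * v j + b' * s * v j := by
    intro j
    simp only [mul_add, Finset.sum_add_distrib, mul_ite, mul_zero, Finset.sum_ite_eq',
      Finset.mem_univ, if_true]
    rw [← hs, Finset.mul_sum, Finset.sum_mul]
    congr 1
    · ring
    · exact Finset.sum_congr rfl fun l _ => by ring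
  ext i j
  rw [Matrix.mul_apply, Fin.sum_univ_castSucc, Matrix.one_apply]
  refine Fin.lastCases ?_ (fun i => ?_) i <;> refine Fin.lastCases ?_ (fun j => ?_) j
  · simp only [blk_lc, blk_cl, blk_ll, if_true]
    have : ∑ l, m * v l * (m' * v l) = m * (m' * s) := by
      rw [← hvv, Finset.mul_sum]; exact Finset.sum_congr rfl fun l _ => by ring
    rw [this, ← h5]; ring
  · simp only [blk_lc, blk_cc, blk_ll, Fin.castSucc_ne_last _ |>.symm, if_false]
    have : ∑ l, m * v l * ((if l = j then a' else 0) + b' * (v l * v j)) =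
        m * (a' * v j + b' * s * v j) := by
      rw [← hδ, Finset.mul_sum]; exact Finset.sum_congr rfl fun l _ => by ring
    rw [this]
    linear_combination v j * h4
  · simp only [blk_cl, blk_cc, blk_ll, Fin.castSucc_ne_last, if_false]
    rw [sum_mul_left, hvv]
    linear_combination v i * h3
  · simp only [blk_cl, blk_cc, blk_lc, Fin.castSucc_inj]
    rw [sum_mul_left, hδ]
    rcases eq_or_ne i j with h | h
    · subst h; simp only [if_true]
      linear_combination h1 + v i * v i * h2
    · simp only [h, if_false]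
      linear_combination v i * v j * h2

lemma blk_trace_mul (v : Fin k → ℝ) {s : ℝ} (a b m e a' b' m' e' : ℝ) (hs : ∑ i, v i ^ 2 = s) :
    ∑ i, ∑ j, blk v a b m e i j * blk v a' b' m' e' i j =
      k * (a * a') + s * (a * b' + b * a') + s ^ 2 * (b * b') + 2 * s * (m * m') + e * e' := by
  simp only [Fin.sum_univ_castSucc, blk_cc, blk_cl, blk_lc, blk_ll]
  have e1 : ∀ i : Fin k, ∑ j, ((if i = j then a else 0) + b * (v i * v j)) *
      ((if i = j then a' else 0) + b' * (v i * v j)) =
      a * a' + (a * b' + b * a') * v i ^ 2 + b * b' * s * v i ^ 2 := by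
    intro i
    rw [sum_mul_left]
    simp only [if_true, mul_add, Finset.sum_add_distrib, mul_ite, mul_zero, Finset.sum_ite_eq,
      Finset.mem_univ]
    have : ∑ j, v j * (b' * (v i * v j)) = b' * v i * s := by
      rw [← hs, Finset.mul_sum]; exact Finset.sum_congr rfl fun j _ => by ring
    rw [this]; ring
  have e2 : ∀ j : Fin k, m * v j * (m' * v j) = m * m' * v j ^ 2 := fun j => by ring
  simp only [e1, e2, Finset.sum_add_distrib, ← Finset.mul_sum, hs, Finset.sum_const,
    Finset.card_univ, Fintype.card_fin, nsmul_eq_mul]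
  ring

lemma blk_det (v : Fin k → ℝ) {s a b m e : ℝ} (hs : ∑ i, v i ^ 2 = s) (ha : a ≠ 0) (he : e ≠ 0) :
    (blk v a b m e).det = a ^ k * ((e * (a + s * b) - s * m ^ 2) / a) := by
  let d : Fin (k+1) → ℝ := Fin.lastCases e (fun _ => a)
  let Uc : Matrix (Fin (k+1)) (Fin 2) ℝ :=
    Matrix.of fun i => Fin.lastCases ![0, 1] (fun i' => ![v i', 0]) i
  let Wr : Matrix (Fin 2) (Fin (k+1)) ℝ :=
    Matrix.of ![fun j => Fin.lastCases (m / a) (fun j' => b / a * v j') j,
      fun j => Fin.lastCases 0 (fun j' => m / e * v j') j]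
  have hfac : blk v a b m e = diagonal d * (1 + Uc * Wr) := by
    ext i j
    rw [Matrix.diagonal_mul, Matrix.add_apply, Matrix.mul_apply, Fin.sum_univ_two]
    refine Fin.lastCases ?_ (fun i => ?_) i <;> refine Fin.lastCases ?_ (fun j => ?_) j
    · simp [blk_ll, d, Uc, Wr]
    · simp [blk_lc, d, Uc, Wr, (Fin.castSucc_ne_last j).symm]
      field_simp
    · simp [blk_cl, d, Uc, Wr, Fin.castSucc_ne_last]
      field_simp
    · simp [blk_cc, d, Uc, Wr, Matrix.one_apply, Fin.castSucc_inj]
      split_ifs <;> field_simp <;> ring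
  have hWU : Wr * Uc = !![b / a * s, m / a; m / e * s, 0] := by
    have hvv : ∀ c : ℝ, ∑ i, c * v i * v i = c * s := fun c => by
      rw [← hs, Finset.mul_sum]; exact Finset.sum_congr rfl fun l _ => by ring
    ext i j
    rw [Matrix.mul_apply, Fin.sum_univ_castSucc]
    fin_cases i <;> fin_cases j <;> simp [Uc, Wr, hvv]
  rw [hfac, Matrix.det_mul, Matrix.det_one_add_mul_comm, hWU, Matrix.det_diagonal,
    Fin.prod_univ_castSucc, Matrix.det_fin_two]
  simp [d]
  field_simp

lemma blk_posDef (v : Fin k → ℝ) {s a b m e : ℝ} (hs : ∑ i, v i ^ 2 = s) (ha : 0 < a) (he : 0 < e)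
    (h : s * m ^ 2 < e * (a + s * b)) : (blk v a b m e).PosDef := by
  refine Matrix.PosDef.of_dotProduct_mulVec_pos ?_ fun x hx => ?_
  · ext i j
    refine Fin.lastCases ?_ (fun i => ?_) i <;> refine Fin.lastCases ?_ (fun j => ?_) j <;>
      simp [blk_ll, blk_lc, blk_cl, blk_cc, mul_comm, eq_comm]
  set ξ : Fin k → ℝ := fun i => x i.castSucc with hξ
  set η : ℝ := x (Fin.last k) with hη
  set p : ℝ := ∑ i, v i * ξ i with hp
  set N : ℝ := ∑ i, ξ i ^ 2 with hN
  have hq : star x ⬝ᵥ (blk v a b m e *ᵥ x) = a * N + b * p ^ 2 + 2 * m * p * η + e * η ^ 2 := by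
    simp only [dotProduct, mulVec, star_trivial, Fin.sum_univ_castSucc, blk_cc, blk_cl, blk_lc,
      blk_ll]
    have e1 : ∀ i : Fin k, ∑ l, ((if i = l then a else 0) + b * (v i * v l)) * x l.castSucc =
        a * ξ i + b * v i * p := fun i => by rw [sum_mul_left]
    simp only [e1]
    have e2 : ∀ i : Fin k, x i.castSucc * (a * ξ i + b * v i * p + m * v i * x (Fin.last k)) =
        a * ξ i ^ 2 + (b * p + m * η) * (v i * ξ i) := fun i => by simp only [hξ, hη]; ring
    have e3 : ∑ j, m * v j * x j.castSucc = m * p := by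
      rw [hp, Finset.mul_sum]; exact Finset.sum_congr rfl fun j _ => by simp only [hξ]; ring
    simp only [e2, e3, Finset.sum_add_distrib, ← Finset.mul_sum]
    rw [← hp, ← hN, ← hη]; ring
  rw [hq]
  have hcs : p ^ 2 ≤ s * N := by
    rw [hp, hN, ← hs]; exact Finset.sum_mul_sq_le_sq_mul_sq _ _ _
  have hs0 : 0 ≤ s := by rw [← hs]; exact Finset.sum_nonneg fun i _ => sq_nonneg _
  have hN0 : 0 ≤ N := Finset.sum_nonneg fun i _ => sq_nonneg _
  have key : 0 < e * (a * N + b * p ^ 2 + 2 * m * p * η + e * η ^ 2) := by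
    rcases eq_or_lt_of_le hN0 with h0 | hpos
    · have hp0 : p = 0 := by
        have : p ^ 2 ≤ 0 := by rw [← h0] at hcs; simpa using hcs
        exact sq_eq_zero_iff.1 (le_antisymm this (sq_nonneg _))
      have hη0 : η ≠ 0 := by
        intro hη0
        apply hx
        funext i
        refine Fin.lastCases ?_ (fun i => ?_) i
        · exact hη0
        · have := (Finset.sum_eq_zero_iff_of_nonneg fun i _ => sq_nonneg (ξ i)).1 h0.symm i
            (Finset.mem_univ _)
          exact sq_eq_zero_iff.1 this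
      rw [hp0, ← h0]; have := pow_two_pos_of_ne_zero hη0; ring_nf; positivity
    · rcases le_or_gt 0 (b * e - m ^ 2) with hc | hc
      · nlinarith [sq_nonneg (e * η + m * p), mul_pos (mul_pos he ha) hpos,
          mul_nonneg hc (sq_nonneg p)]
      · nlinarith [sq_nonneg (e * η + m * p),
          mul_nonneg (neg_pos.2 hc).le (sub_nonneg.2 hcs), mul_pos hpos (sub_pos.2 h)]
  exact pos_of_mul_pos_right key he.le

end Vale.Agent.P252
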