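import Mathlib

namespace Vale.Agent.P252

/-- Scale invariant form of the equation. -/
noncomputable def core (k z w t R sR : ℝ) : ℝ :=
  let q := k + 2
  let θ := (k + 2) / (k + 3)
  let c := k / 2 + 1 + R
  let a := q * (1 - t) - 2 * θ * c
  (k * (1 + w) - w) * a + z * a ^ 2 + q * (w + z) * (1 - t) - 2 * q * z * (1 - t) ^ 2
    - 4 * θ * ((w - z) / 2 * c + sR) + 2 * z * t * a * q - 4 * q * z * t * (1 - t)
    + (1 + w + z * t) * (q + (q ^ 2 - 2 * q) * t)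

lemma core_eq_zero (k z w t : ℝ) (hk : k + 2 * z ≠ 0) (hn : k + 3 ≠ 0) :
    core k z w t ((2 * z + 2 * k + 3 + w * (2 * k + 6)) / (2 * (k + 2 * z)))
      (((2 * (z * (1 + (w - z) / 2)) +
        (z * ((2 * z + 2 * k + 3 + w * (2 * k + 6)) / (2 * (k + 2 * z))) - k / 2 * w) * (1 + w)
          * (2 * k + 6)) * (2 * (k + 2 * z)) -
        (2 * z + 2 * k + 3 + w * (2 * k + 6)) * (4 * (z * (1 + (w - z) / 2)))) /
          (2 * (k + 2 * z)) ^ 2) = 0 := by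
  unfold core
  field_simp
  ring

lemma core_scale (k s Y B G y R D : ℝ) (hY : Y ≠ 0) (hG : G ≠ 0) (hW : 1 + s * B ≠ 0)
    (hT : 1 + s * Y + s * B ≠ 0) (hΦ : G + y ^ 2 ≠ 0) :
    let q := k + 2
    let θ := (k + 2) / (k + 3)
    let dY := Y * (B - Y) / 2
    let V := Y * G
    let dV := Y * G * (B + Y) / 2
    let T := V * (1 + s * Y + s * B)
    let Q := G * V * (1 + s * B)
    let Φ := G + y ^ 2
    let α := q * V / Φ + 2 * (-θ * Y * (k / 2 + 1 + R))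
    let β := 2 * (q * (dV / Φ - V ^ 2 / Φ ^ 2) + 2 * (-θ * (dY * (k / 2 + 1 + R) + Y * D))) + α ^ 2
    let ε := α * q * y / Φ - 2 * q * y * V / Φ ^ 2
    let ζ := q / Φ + (q ^ 2 - 2 * q) * y ^ 2 / Φ ^ 2
    let γ := -(2 * dV) / (V * T) + V ^ 2 / (T * Q)
    k * (1 / V) * α + s * (1 / V * β + γ * α) + s ^ 2 * γ * β + 2 * s * (V * y / Q) * ε +
      (1 + T * y ^ 2 / Q) * ζ =
      core k (s * Y) (s * B) (y ^ 2 / (G + y ^ 2)) R (s * D) / (G * (1 + s * B)) := by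
  intro q θ dY V dV T Q Φ α β ε ζ γ
  have hV : V ≠ 0 := mul_ne_zero hY hG
  have hγ : γ = -B / (V * (1 + s * B)) := by
    have hT' : T ≠ 0 := mul_ne_zero hV hT
    have hQ' : Q ≠ 0 := mul_ne_zero (mul_ne_zero hG hV) hW
    simp only [γ]
    rw [div_add_div _ _ (mul_ne_zero hV hT') (mul_ne_zero hT' hQ'),
      div_eq_div_iff (mul_ne_zero (mul_ne_zero hV hT') (mul_ne_zero hT' hQ')) (mul_ne_zero hV hW)]
    simp only [T, Q, dV, V]
    ring
  rw [hγ]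
  simp only [q, θ, dY, V, dV, T, Q, Φ, α, β, ε, ζ, core]
  generalize (k + 2) / (k + 3) = th
  field_simp
  ring

lemma am_identity (k s Y B G y : ℝ) (hk : k + 2 * (s * Y) ≠ 0) (hn : k + 3 ≠ 0)
    (hY : Y ≠ 0) (hG : G ≠ 0) (hW : 1 + s * B ≠ 0) (hT : 1 + s * Y + s * B ≠ 0)
    (hΦ : G + y ^ 2 ≠ 0) :
    let q := k + 2
    let θ := (k + 2) / (k + 3)
    let R := (2 * (s * Y) + 2 * k + 3 + s * B * (2 * k + 6)) / (2 * (k + 2 * (s * Y)))
    let dY := Y * (B - Y) / 2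
    let dR := ((2 * (Y + s * dY) + (Y * R - k / 2 * B) * (1 + s * B) * (2 * k + 6)) *
        (2 * (k + 2 * (s * Y))) -
        (2 * (s * Y) + 2 * k + 3 + s * B * (2 * k + 6)) * (4 * (Y + s * dY))) /
        (2 * (k + 2 * (s * Y))) ^ 2
    let V := Y * G
    let dV := Y * G * (B + Y) / 2
    let T := V * (1 + s * Y + s * B)
    let Q := G * V * (1 + s * B)
    let Φ := G + y ^ 2
    let α := q * V / Φ + 2 * (-θ * Y * (k / 2 + 1 + R))
    let β := 2 * (q * (dV / Φ - V ^ 2 / Φ ^ 2) + 2 * (-θ * (dY * (k / 2 + 1 + R) + Y * dR))) + α ^ 2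
    let ε := α * q * y / Φ - 2 * q * y * V / Φ ^ 2
    let ζ := q / Φ + (q ^ 2 - 2 * q) * y ^ 2 / Φ ^ 2
    let γ := -(2 * dV) / (V * T) + V ^ 2 / (T * Q)
    k * (1 / V) * α + s * (1 / V * β + γ * α) + s ^ 2 * γ * β + 2 * s * (V * y / Q) * ε +
      (1 + T * y ^ 2 / Q) * ζ = 0 := by
  intro q θ R dY dR V dV T Q Φ α β ε ζ γ
  have h := core_scale k s Y B G y R dR hY hG hW hT hΦ
  simp only at h
  refine h.trans ?_
  rw [div_eq_zero_iff]
  left
  refine Eq.trans ?_ (core_eq_zero k (s * Y) (s * B) (y ^ 2 / (G + y ^ 2)) hk hn)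
  congr 1
  simp only [dR, dY, R]
  ring

end Vale.Agent.P252
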