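import Vale.Agent.P252.Profile
import Vale.Agent.P252.Identity
import Vale.Agent.P252.Block
import Vale.Agent.P252.Defs

namespace Vale.Agent.P252

open Filter Topology Real Matrix
open scoped ContDiff

variable {k : ℕ}

/-- Squared norm of the first `k` coordinates. -/
noncomputable def sx (x : EuclideanSpace ℝ (Fin (k+1))) : ℝ := ∑ i : Fin k, x i.castSucc ^ 2

def yy (x : EuclideanSpace ℝ (Fin (k+1))) : ℝ := x (Fin.last k)

lemma sx_nonneg (x : EuclideanSpace ℝ (Fin (k+1))) : 0 ≤ sx x :=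
  Finset.sum_nonneg fun _ _ => sq_nonneg _

lemma coord_line (x : EuclideanSpace ℝ (Fin (k+1))) (i j : Fin (k+1)) (t : ℝ) :
    (x + t • EuclideanSpace.single i (1:ℝ)) j = x j + if j = i then t else 0 := by
  simp [mul_ite]

lemma sx_line_cs (x : EuclideanSpace ℝ (Fin (k+1))) (i : Fin k) (t : ℝ) :
    sx (x + t • EuclideanSpace.single i.castSucc (1:ℝ)) = sx x + 2 * t * x i.castSucc + t ^ 2 := by
  simp only [sx, coord_line, Fin.castSucc_inj]
  have : ∀ l : Fin k, (x l.castSucc + if l = i then t else 0) ^ 2 =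
      x l.castSucc ^ 2 + if l = i then 2 * t * x l.castSucc + t ^ 2 else 0 := by
    intro l; split_ifs <;> ring
  simp only [this, Finset.sum_add_distrib, Finset.sum_ite_eq', Finset.mem_univ, if_true]
  ring

lemma yy_line_cs (x : EuclideanSpace ℝ (Fin (k+1))) (i : Fin k) (t : ℝ) :
    yy (x + t • EuclideanSpace.single i.castSucc (1:ℝ)) = yy x := by
  simp [yy, coord_line, (Fin.castSucc_ne_last i).symm]

lemma sx_line_last (x : EuclideanSpace ℝ (Fin (k+1))) (t : ℝ) :
    sx (x + t • EuclideanSpace.single (Fin.last k) (1:ℝ)) = sx x := by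
  simp [sx, coord_line, Fin.castSucc_ne_last]

lemma yy_line_last (x : EuclideanSpace ℝ (Fin (k+1))) (t : ℝ) :
    yy (x + t • EuclideanSpace.single (Fin.last k) (1:ℝ)) = yy x + t := by
  simp [yy, coord_line]

lemma pd_of_line {f : EuclideanSpace ℝ (Fin (k+1)) → ℝ} {x : EuclideanSpace ℝ (Fin (k+1))}
    (hf : DifferentiableAt ℝ f x) {i : Fin (k+1)} {d : ℝ}
    (h : HasDerivAt (fun t : ℝ => f (x + t • EuclideanSpace.single i (1:ℝ))) d 0) :
    fderiv ℝ f x (EuclideanSpace.single i 1) = d := by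
  rw [← hf.lineDeriv_eq_fderiv]
  exact HasLineDerivAt.lineDeriv h

lemma line_cs {F : ℝ → ℝ → ℝ} {F' : ℝ} {x : EuclideanSpace ℝ (Fin (k+1))}
    (h : HasDerivAt (fun s => F s (yy x)) F' (sx x)) (i : Fin k) :
    HasDerivAt (fun t : ℝ => F (sx (x + t • EuclideanSpace.single i.castSucc (1:ℝ)))
      (yy (x + t • EuclideanSpace.single i.castSucc (1:ℝ)))) (2 * x i.castSucc * F') 0 := by
  simp only [sx_line_cs, yy_line_cs]
  have hl : HasDerivAt (fun t : ℝ => sx x + 2 * t * x i.castSucc + t ^ 2) (2 * x i.castSucc) 0 :=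
    (((((hasDerivAt_id (0:ℝ)).const_mul 2).mul_const (x i.castSucc)).const_add (sx x)).add
      (hasDerivAt_pow 2 0)).congr_deriv (by simp)
  exact (HasDerivAt.comp_of_eq (h₂ := fun s => F s (yy x)) 0 h hl (by simp)).congr_deriv (by ring)

lemma line_last {F : ℝ → ℝ → ℝ} {F' : ℝ} {x : EuclideanSpace ℝ (Fin (k+1))}
    (h : HasDerivAt (fun y => F (sx x) y) F' (yy x)) :
    HasDerivAt (fun t : ℝ => F (sx (x + t • EuclideanSpace.single (Fin.last k) (1:ℝ)))
      (yy (x + t • EuclideanSpace.single (Fin.last k) (1:ℝ)))) F' 0 := by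
  simp only [sx_line_last, yy_line_last]
  have hl : HasDerivAt (fun t : ℝ => yy x + t) 1 0 := (hasDerivAt_id 0).const_add _
  exact (HasDerivAt.comp_of_eq (h₂ := fun y => F (sx x) y) 0 h hl (by simp)).congr_deriv (by ring)

/-- Partial derivatives of `p(s,y) xⱼ`-type functions. -/
lemma hessian_eq_blk {f : EuclideanSpace ℝ (Fin (k+1)) → ℝ} (hf : ContDiff ℝ ∞ f)
    {P Q : ℝ → ℝ → ℝ}
    (hP : ∀ z (j : Fin k), fderiv ℝ f z (EuclideanSpace.single j.castSucc 1) =
      P (sx z) (yy z) * z j.castSucc)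
    (hQ : ∀ z, fderiv ℝ f z (EuclideanSpace.single (Fin.last k) 1) = Q (sx z) (yy z))
    {x : EuclideanSpace ℝ (Fin (k+1))} {Ps Py Qy : ℝ}
    (hPs : HasDerivAt (fun s => P s (yy x)) Ps (sx x))
    (hPy : HasDerivAt (fun y => P (sx x) y) Py (yy x))
    (hQs : HasDerivAt (fun s => Q s (yy x)) (Py / 2) (sx x))
    (hQy : HasDerivAt (fun y => Q (sx x) y) Qy (yy x)) :
    hessian f x = blk (fun i => x i.castSucc) (P (sx x) (yy x)) (2 * Ps) Py Qy := by
  have hd : ∀ (j : Fin (k+1)), DifferentiableAt ℝ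
      (fun z => fderiv ℝ f z (EuclideanSpace.single j 1)) x := fun j =>
    (((hf.fderiv_right (m := ∞) (by simp)).clm_apply contDiff_const).differentiable
      (by simp)).differentiableAt
  ext i j
  simp only [hessian, Matrix.of_apply]
  refine Fin.lastCases ?_ (fun j => ?_) j
  · refine Fin.lastCases ?_ (fun i => ?_) i
    · rw [blk_ll]
      refine pd_of_line (hd _) ?_
      simp only [hQ]
      exact line_last hQy
    · rw [blk_cl]
      refine pd_of_line (hd _) ?_
      simp only [hQ]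
      exact (line_cs hQs i).congr_deriv (by ring)
  · refine Fin.lastCases ?_ (fun i => ?_) i
    · rw [blk_lc]
      refine pd_of_line (hd _) ?_
      simp only [hP, coord_line x (Fin.last k) j.castSucc, Fin.castSucc_ne_last, if_false, add_zero]
      exact (line_last hPy).mul_const _
    · rw [blk_cc]
      refine pd_of_line (hd _) ?_
      simp only [hP, coord_line x i.castSucc j.castSucc, Fin.castSucc_inj]
      have hc : HasDerivAt (fun t : ℝ => x j.castSucc + if j = i then t else 0)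
          (if i = j then 1 else 0) 0 := by
        rcases eq_or_ne j i with h | h
        · subst h; simp only [if_true]; exact (hasDerivAt_id (0:ℝ)).const_add _
        · simp only [h, if_false, h.symm]; exact hasDerivAt_const _ _
      refine ((line_cs hPs i).mul hc).congr_deriv ?_
      simp only [zero_smul, add_zero, ite_self]
      split_ifs <;> ring

set_option linter.unusedSimpArgs false in
theorem exists_solution (hk : 9 ≤ k) :
    ∃ u : EuclideanSpace ℝ (Fin (k+1)) → ℝ, ContDiff ℝ ∞ u ∧ (∀ x, (hessian u x).PosDef) ∧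
      (∀ x, ∑ i, ∑ j, ((hessian u x).det • (hessian u x)⁻¹) i j *
        hessian (fun z => (hessian u z).det ^ (-(((k+1 : ℕ) : ℝ) + 1) / (((k+1 : ℕ) : ℝ) + 2))) x i j
          = 0) ∧
      ∀ t : ℝ, u (t • EuclideanSpace.single (Fin.last k) 1) = √(1 + t ^ 2) := by
  have hkR : (9:ℝ) ≤ k := by exact_mod_cast hk
  obtain ⟨G, Y, B, om, hGs, hG0, hGp, hprop⟩ := exists_profile hkR
  let u : EuclideanSpace ℝ (Fin (k+1)) → ℝ := fun z => √(G (sx z) + yy z ^ 2)
  have hΦ : ∀ s y, 0 < G s + y ^ 2 := fun s y => by have := hGp s; positivity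
  have hproj : ∀ i : Fin (k+1), ContDiff ℝ ∞ (fun z : EuclideanSpace ℝ (Fin (k+1)) => z i) :=
    fun i => (contDiff_piLp_apply (p := 2) (i := i))
  have hsx : ContDiff ℝ ∞ (sx (k := k)) := ContDiff.sum fun i _ => (hproj _).pow 2
  have hu : ContDiff ℝ ∞ u :=
    ((hGs.comp hsx).add ((hproj (Fin.last k)).pow 2)).sqrt fun z => (hΦ _ _).ne'
  -- first derivatives
  have dΦ : ∀ s y, 0 ≤ s → HasDerivAt (fun s => G s + y ^ 2) (Y s * G s) s :=
    fun s y hs => (hprop s hs).2.2.2.1.add_const _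
  have dΦy : ∀ s y, HasDerivAt (fun y => G s + y ^ 2) (2 * y) y :=
    fun s y => ((hasDerivAt_pow 2 y).const_add (G s)).congr_deriv (by simp)
  let P : ℝ → ℝ → ℝ := fun s y => Y s * G s / √(G s + y ^ 2)
  let Q : ℝ → ℝ → ℝ := fun s y => y / √(G s + y ^ 2)
  have huP : ∀ z (j : Fin k), fderiv ℝ u z (EuclideanSpace.single j.castSucc 1) =
      P (sx z) (yy z) * z j.castSucc := by
    intro z j
    refine pd_of_line (hu.differentiable (by simp) z) ?_
    refine (line_cs (F := fun s y => √(G s + y ^ 2))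
      ((dΦ _ _ (sx_nonneg z)).sqrt (hΦ _ _).ne') j).congr_deriv ?_
    simp only [P]; field_simp
  have huQ : ∀ z, fderiv ℝ u z (EuclideanSpace.single (Fin.last k) 1) = Q (sx z) (yy z) := by
    intro z
    refine pd_of_line (hu.differentiable (by simp) z) ?_
    refine (line_last (F := fun s y => √(G s + y ^ 2))
      ((dΦy _ _).sqrt (hΦ _ _).ne')).congr_deriv ?_
    simp only [Q]; field_simp
  -- the blocks of the Hessian
  let ab : EuclideanSpace ℝ (Fin (k+1)) → ℝ := fun x =>
    (Y (sx x) * G (sx x) * (B (sx x) + Y (sx x))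
      - (Y (sx x) * G (sx x)) ^ 2 / (G (sx x) + yy x ^ 2)) / √(G (sx x) + yy x ^ 2)
  let am : EuclideanSpace ℝ (Fin (k+1)) → ℝ := fun x =>
    -(Y (sx x) * G (sx x) * yy x) / ((G (sx x) + yy x ^ 2) * √(G (sx x) + yy x ^ 2))
  let ae : EuclideanSpace ℝ (Fin (k+1)) → ℝ := fun x =>
    G (sx x) / ((G (sx x) + yy x ^ 2) * √(G (sx x) + yy x ^ 2))
  have dV : ∀ s, 0 ≤ s →
      HasDerivAt (fun s => Y s * G s) (Y s * G s * (B s + Y s) / 2) s := by
    intro s hs
    obtain ⟨-, -, -, h1, h2, -⟩ := hprop s hs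
    exact (h2.mul h1).congr_deriv (by ring)
  have hH : ∀ x, hessian u x = blk (fun i => x i.castSucc) (P (sx x) (yy x)) (ab x) (am x) (ae x) := by
    intro x
    set s := sx x with hs
    set y := yy x with hy
    have hr : 0 < √(G s + y ^ 2) := Real.sqrt_pos.2 (hΦ _ _)
    have hr2 := Real.sq_sqrt (hΦ s y).le
    have hΦne := (hΦ s y).ne'
    have := hessian_eq_blk hu huP huQ (x := x) (Ps := ab x / 2) (Py := am x) (Qy := ae x) ?_ ?_ ?_ ?_
    · rw [this]; congr 1; ring
    all_goals simp only [← hs, ← hy, P, Q, ab, am, ae]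
    · refine ((dV s (sx_nonneg x)).div ((dΦ s y (sx_nonneg x)).sqrt (hΦ _ _).ne') hr.ne').congr_deriv ?_
      field_simp
      rw [hr2]
      all_goals (field_simp; try ring)
    · refine ((hasDerivAt_const y (Y s * G s)).div ((dΦy s y).sqrt (hΦ _ _).ne') hr.ne').congr_deriv ?_
      field_simp
      rw [hr2]
      all_goals (field_simp; try ring)
    · refine ((hasDerivAt_const s y).div ((dΦ s y (sx_nonneg x)).sqrt (hΦ _ _).ne') hr.ne').congr_deriv ?_
      field_simp
      rw [hr2]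
      all_goals (field_simp; try ring)
    · refine ((hasDerivAt_id y).div ((dΦy s y).sqrt (hΦ _ _).ne') hr.ne').congr_deriv ?_
      simp only [id]
      field_simp
      rw [hr2]
      all_goals (field_simp; try ring)
  have hsum : ∀ x : EuclideanSpace ℝ (Fin (k+1)), ∑ i : Fin k, x i.castSucc ^ 2 = sx x :=
    fun x => rfl
  have hW : ∀ s, 0 ≤ s → 1 + s * B s = 1 / om s := fun s hs => by
    rw [(hprop s hs).2.2.1]; ring
  have hWp : ∀ s, 0 ≤ s → 0 < 1 + s * B s := fun s hs => by
    rw [hW s hs]; exact one_div_pos.2 (hprop s hs).2.1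
  have hcond : ∀ x, ae x * (P (sx x) (yy x) + sx x * ab x) - sx x * am x ^ 2 =
      Y (sx x) * G (sx x) * G (sx x) * (1 + sx x * B (sx x)) / (G (sx x) + yy x ^ 2) ^ 2 := by
    intro x
    simp only [ae, ab, am, P]
    set s := sx x
    set y := yy x
    have hr : 0 < √(G s + y ^ 2) := Real.sqrt_pos.2 (hΦ _ _)
    have hr2 := Real.sq_sqrt (hΦ s y).le
    have hP := (hΦ s y).ne'
    generalize √(G s + y ^ 2) = r at hr hr2
    rw [← hr2] at hP ⊢
    have hG : G s = r ^ 2 - y ^ 2 := by linarith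
    rw [hG]
    field_simp
    ring
  have hPpos : ∀ x : EuclideanSpace ℝ (Fin (k+1)), 0 < P (sx x) (yy x) := fun x =>
    div_pos (mul_pos (hprop _ (sx_nonneg x)).1 (hGp _)) (Real.sqrt_pos.2 (hΦ _ _))
  have haepos : ∀ x, 0 < ae x := fun x =>
    div_pos (hGp _) (mul_pos (hΦ _ _) (Real.sqrt_pos.2 (hΦ _ _)))
  have hdpos : ∀ x, 0 < ae x * (P (sx x) (yy x) + sx x * ab x) - sx x * am x ^ 2 := by
    intro x
    rw [hcond]
    have h1 := (hprop _ (sx_nonneg x)).1
    have h2 := hGp (sx x)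
    have h3 := hWp _ (sx_nonneg x)
    have h4 := hΦ (sx x) (yy x)
    positivity
  have hpd : ∀ x, (hessian u x).PosDef := fun x => by
    rw [hH x]
    exact blk_posDef _ (hsum x) (hPpos x) (haepos x) (by linarith [hdpos x])
  have hdet : ∀ x, (hessian u x).det = (G (sx x) * (Y (sx x) * G (sx x)) ^ k / om (sx x)) /
      √(G (sx x) + yy x ^ 2) ^ (k + 3) := by
    intro x
    rw [hH x, blk_det _ (hsum x) (hPpos x).ne' (haepos x).ne', hcond x, hW _ (sx_nonneg x)]
    simp only [P]
    set s := sx x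
    set y := yy x
    have hr : 0 < √(G s + y ^ 2) := Real.sqrt_pos.2 (hΦ _ _)
    have hr2 := Real.sq_sqrt (hΦ s y).le
    have hY := (hprop s (sx_nonneg x)).1
    have hG := hGp s
    have ho := (hprop s (sx_nonneg x)).2.1
    rw [← hr2]
    rw [Real.sqrt_sq (Real.sqrt_nonneg _), div_pow, pow_add]
    field_simp
  set q : ℝ := (k:ℝ) + 2 with hq
  set θ : ℝ := ((k:ℝ) + 2) / ((k:ℝ) + 3) with hθ
  let ψ : ℝ → ℝ → ℝ := fun s y =>
    -θ * (((k:ℝ) + 1) * Real.log (G s) + k * Real.log (Y s) - Real.log (om s)) +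
      q / 2 * Real.log (G s + y ^ 2)
  let wf : EuclideanSpace ℝ (Fin (k+1)) → ℝ := fun z =>
    (hessian u z).det ^ (-(((k+1 : ℕ) : ℝ) + 1) / (((k+1 : ℕ) : ℝ) + 2))
  have hwf : ∀ z, wf z = Real.exp (ψ (sx z) (yy z)) := by
    intro z
    simp only [wf]
    rw [Real.rpow_def_of_pos (hpd z).det_pos, hdet z]
    congr 1
    have hY := (hprop _ (sx_nonneg z)).1
    have hG := hGp (sx z)
    have ho := (hprop _ (sx_nonneg z)).2.1
    have hr := Real.sqrt_pos.2 (hΦ (sx z) (yy z))
    rw [Real.log_div (by positivity) (by positivity), Real.log_div (by positivity) ho.ne',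
      Real.log_mul hG.ne' (by positivity), Real.log_pow, Real.log_mul hY.ne' hG.ne', Real.log_pow,
      Real.log_sqrt (hΦ _ _).le]
    simp only [ψ, hq, hθ]
    push_cast
    field_simp
    ring
  have hw : ContDiff ℝ ∞ wf := by
    have hentry : ∀ i j, ContDiff ℝ ∞ (fun z => hessian u z i j) := fun i j => by
      simp only [hessian, Matrix.of_apply]
      exact (((hu.fderiv_right (m := ∞) (by simp)).clm_apply contDiff_const).fderiv_right
        (m := ∞) (by simp)).clm_apply contDiff_const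
    have hdd : ContDiff ℝ ∞ (fun z => (hessian u z).det) := by
      simp only [Matrix.det_apply]
      exact ContDiff.sum fun σ _ =>
        (contDiff_prod fun i _ => hentry _ _).const_smul _
    exact hdd.rpow_const_of_ne fun z => (hpd z).det_pos.ne'
  let R : ℝ → ℝ := fun s => Rf k (s * Y s) (om s)
  let α : ℝ → ℝ → ℝ := fun s y =>
    q * (Y s * G s) / (G s + y ^ 2) + 2 * (-θ * Y s * ((k:ℝ) / 2 + 1 + R s))
  have dψ : ∀ s y, 0 ≤ s → HasDerivAt (fun s => ψ s y) (α s y / 2) s := by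
    intro s y hs
    obtain ⟨hY, ho, hsB, h1, h2, h3⟩ := hprop s hs
    have hG := hGp s
    refine (((((h1.log hG.ne').const_mul ((k:ℝ) + 1)).add ((h2.log hY.ne').const_mul (k:ℝ))).sub
      (h3.log ho.ne')).const_mul (-θ) |>.add
        (((dΦ s y hs).log (hΦ _ _).ne').const_mul (q / 2))).congr_deriv ?_
    simp only [α, R]
    field_simp
    ring
  have dψy : ∀ s y, HasDerivAt (fun y => ψ s y) (q * y / (G s + y ^ 2)) y := by
    intro s y
    refine ((((dΦy s y).log (hΦ _ _).ne').const_mul (q / 2)).const_add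
      (-θ * (((k:ℝ) + 1) * Real.log (G s) + k * Real.log (Y s) - Real.log (om s)))).congr_deriv ?_
    field_simp
  let Pw : ℝ → ℝ → ℝ := fun s y => Real.exp (ψ s y) * α s y
  let Qw : ℝ → ℝ → ℝ := fun s y => Real.exp (ψ s y) * (q * y / (G s + y ^ 2))
  have hwP : ∀ z (j : Fin k), fderiv ℝ wf z (EuclideanSpace.single j.castSucc 1) =
      Pw (sx z) (yy z) * z j.castSucc := by
    intro z j
    refine pd_of_line (hw.differentiable (by simp) z) ?_
    simp only [hwf]
    refine (line_cs (F := fun s y => Real.exp (ψ s y)) (dψ _ _ (sx_nonneg z)).exp j).congr_deriv ?_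
    simp only [Pw]; ring
  have hwQ : ∀ z, fderiv ℝ wf z (EuclideanSpace.single (Fin.last k) 1) = Qw (sx z) (yy z) := by
    intro z
    refine pd_of_line (hw.differentiable (by simp) z) ?_
    simp only [hwf]
    exact (line_last (F := fun s y => Real.exp (ψ s y)) (dψy _ _).exp)
  refine ⟨u, hu, hpd, ?_, ?_⟩
  · intro x
    have hs0 := sx_nonneg x
    set s := sx x with hs
    set y := yy x with hy
    obtain ⟨hY, ho, hsB, h1, h2, h3⟩ := hprop s hs0
    have hG := hGp s
    have hWs := hWp s hs0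
    have hΦs := hΦ s y
    set Bs := B s with hBs
    have ho' : om s = 1 / (1 + s * Bs) := by rw [hW s hs0, one_div_one_div]
    have hz : 0 ≤ s * Y s := mul_nonneg hs0 hY.le
    have hT : 0 < 1 + s * Y s + s * Bs := by linarith
    have hden : 0 < (k:ℝ) + 2 * (s * Y s) := by linarith
    set Rs : ℝ := (2 * (s * Y s) + 2 * k + 3 + s * Bs * (2 * k + 6)) /
      (2 * (k + 2 * (s * Y s))) with hRs
    have hR : R s = Rs := by simp only [R, Rf, hRs, hsB]
    set dYs : ℝ := Y s * (Bs - Y s) / 2 with hdYs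
    set dR : ℝ := ((2 * (Y s + s * dYs) + (Y s * Rs - k / 2 * Bs) * (1 + s * Bs) * (2 * k + 6)) *
        (2 * (k + 2 * (s * Y s))) -
        (2 * (s * Y s) + 2 * k + 3 + s * Bs * (2 * k + 6)) * (4 * (Y s + s * dYs))) /
        (2 * (k + 2 * (s * Y s))) ^ 2 with hdR
    have dRd : HasDerivAt R dR s := by
      have hz' := (hasDerivAt_id s).mul h2
      have hn := (((hz'.const_mul 2).add_const (2 * (k:ℝ))).add_const 3).add
        ((((hasDerivAt_const s (1:ℝ)).div h3 ho.ne').sub_const 1).mul_const (2 * (k:ℝ) + 6))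
      have hd := ((hz'.const_mul 2).const_add (k:ℝ)).const_mul 2
      have hR' : R = fun r => ((fun r => 2 * (id r * Y r) + 2 * (k:ℝ) + 3) r +
          (1 / om r - 1) * (2 * (k:ℝ) + 6)) / (2 * ((k:ℝ) + 2 * (id r * Y r))) := rfl
      rw [hR']
      refine (hn.div hd (by simp only [id, Pi.mul_apply]; linarith)).congr_deriv ?_
      simp only [id, Pi.mul_apply, Pi.add_apply, Pi.div_apply]
      rw [show Rf (k:ℝ) (s * Y s) (om s) = Rs from hR, hdR]
      rw [show 1 / om s - 1 = s * Bs from hsB.symm]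
      congr 1
      rw [ho']
      generalize hd1 : Y s + s * dYs = A1
      field_simp
      rw [← hd1]
      ring
    set V := Y s * G s with hV
    set dVs := Y s * G s * (Bs + Y s) / 2 with hdVs
    set Φ := G s + y ^ 2 with hΦdef
    set a0 : ℝ := q * V / Φ + 2 * (-θ * Y s * ((k:ℝ) / 2 + 1 + Rs)) with ha0
    set β : ℝ := 2 * (q * (dVs / Φ - V ^ 2 / Φ ^ 2) +
      2 * (-θ * (dYs * ((k:ℝ) / 2 + 1 + Rs) + Y s * dR))) + a0 ^ 2 with hβ
    set ε : ℝ := a0 * q * y / Φ - 2 * q * y * V / Φ ^ 2 with hε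
    set ζ : ℝ := q / Φ + (q ^ 2 - 2 * q) * y ^ 2 / Φ ^ 2 with hζ
    set T : ℝ := V * (1 + s * Y s + s * Bs) with hTdef
    set Qd : ℝ := G s * V * (1 + s * Bs) with hQd
    set γ : ℝ := -(2 * dVs) / (V * T) + V ^ 2 / (T * Qd) with hγ
    set ex : ℝ := Real.exp (ψ s y) with hex
    have hVp : 0 < V := mul_pos hY hG
    have hαs : α s y = a0 := by simp only [α, hR, ha0, hV, hΦdef]
    have dαs : HasDerivAt (fun r => α r y)
        (q * (dVs / Φ - V ^ 2 / Φ ^ 2) +
          (2 * (-θ * (dYs * ((k:ℝ) / 2 + 1 + Rs) + Y s * dR)))) s := by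
      refine ((((dV s hs0).const_mul q).div (dΦ s y hs0) hΦs.ne').add
        (((h2.const_mul (-θ)).mul (dRd.const_add ((k:ℝ) / 2 + 1))).const_mul 2)).congr_deriv ?_
      simp only [hR, ← hBs, ← hdYs, ← hdVs, ← hV, ← hΦdef]
      field_simp
      ring
    have dαy : HasDerivAt (fun y => α s y) (-2 * q * y * V / Φ ^ 2) y := by
      refine (((hasDerivAt_const y (q * (Y s * G s))).div (dΦy s y) hΦs.ne').add_const
        (2 * (-θ * Y s * ((k:ℝ) / 2 + 1 + R s)))).congr_deriv ?_
      simp only [← hV, ← hΦdef]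
      field_simp
      ring
    have hHw : hessian wf x = blk (fun i => x i.castSucc) (ex * a0) (ex * β) (ex * ε) (ex * ζ) := by
      have := hessian_eq_blk hw hwP hwQ (x := x) (Ps := ex * β / 2) (Py := ex * ε)
        (Qy := ex * ζ) ?_ ?_ ?_ ?_
      · rw [this]
        simp only [Pw, ← hs, ← hy, ← hex, hαs]
        congr 1; ring
      all_goals simp only [← hs, ← hy, Pw, Qw]
      · refine ((dψ s y hs0).exp.mul dαs).congr_deriv ?_
        rw [hαs, hβ, ← hex]; ring
      · refine ((dψy s y).exp.mul dαy).congr_deriv ?_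
        rw [hαs, hε, ← hex, ← hΦdef]; ring
      · refine ((dψ s y hs0).exp.mul
          ((hasDerivAt_const s (q * y)).div (dΦ s y hs0) hΦs.ne')).congr_deriv ?_
        simp only [Pi.div_apply]
        rw [hαs, hε, ← hex, ← hV, ← hΦdef]; ring
      · refine ((dψy s y).exp.mul
          (((hasDerivAt_id y).const_mul q).div (dΦy s y) hΦs.ne')).congr_deriv ?_
        simp only [Pi.div_apply, id]
        rw [hζ, ← hex, ← hΦdef]
        field_simp
        ring
    set r := √Φ with hrdef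
    have hr : 0 < r := Real.sqrt_pos.2 hΦs
    have hr2 : r ^ 2 = Φ := Real.sq_sqrt hΦs.le
    have hinv : (hessian u x)⁻¹ = blk (fun i => x i.castSucc) (r / V) (r * γ)
        (r * (V * y / Qd)) (r * (1 + T * y ^ 2 / Qd)) := by
      apply Matrix.inv_eq_right_inv
      rw [hH x]
      have hGe : G s = r ^ 2 - y ^ 2 := by rw [hr2, hΦdef]; ring
      have hne : r ^ 2 - y ^ 2 ≠ 0 := by rw [← hGe]; exact hG.ne'
      have hWn : 1 + s * Bs ≠ 0 := hWs.ne'
      have hTn : 1 + s * Y s + s * Bs ≠ 0 := hT.ne'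
      have hYn := hY.ne'
      refine blk_mul_one _ (hsum x) ?_ ?_ ?_ ?_ ?_
      all_goals simp only [P, ab, am, ae, ← hs, ← hy, ← hBs, ← hΦdef, ← hrdef]
      all_goals (try rw [← hr2])
      all_goals simp only [hγ, hdVs, hTdef, hQd, hV, Real.sqrt_sq hr.le]
      all_goals (try simp only [hGe])
      all_goals generalize hTT : 1 + s * Y s + s * Bs = TT at hTn ⊢
      all_goals generalize hWW : 1 + s * Bs = WW at hWn ⊢
      all_goals field_simp
      all_goals subst hWW hTT
      all_goals ring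
    rw [show hessian (fun z => (hessian u z).det ^
      (-(((k+1 : ℕ) : ℝ) + 1) / (((k+1 : ℕ) : ℝ) + 2))) x = hessian wf x from rfl, hHw, hinv]
    simp only [Matrix.smul_apply, smul_eq_mul, mul_assoc ((hessian u x).det), ← Finset.mul_sum]
    rw [blk_trace_mul _ _ _ _ _ _ _ _ _ (hsum x)]
    have hid := am_identity (k:ℝ) s (Y s) Bs (G s) y hden.ne' (by linarith) hY.ne' hG.ne'
      hWs.ne' hT.ne' hΦs.ne'
    simp only at hid
    refine mul_eq_zero_of_right _ ?_
    refine Eq.trans ?_ (mul_eq_zero_of_right (r * ex) hid)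
    simp only [← hs, hγ, hdVs, hTdef, hQd, hε, hζ, hβ, ha0, hdR, hRs, hdYs, hV, hΦdef, hq, hθ]
    ring
  · intro t
    have hs : sx (t • EuclideanSpace.single (Fin.last k) (1:ℝ)) = 0 := by
      simp [sx, Fin.castSucc_ne_last]
    have hy : yy (t • EuclideanSpace.single (Fin.last k) (1:ℝ)) = t := by simp [yy]
    simp only [u, hs, hy, hG0]

end Vale.Agent.P252
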