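import Vale.Agent.P252.Avg

namespace Vale.Agent.P252

open MeasureTheory Set Filter Topology intervalIntegral
open scoped ContDiff BoundedContinuousFunction NNReal

lemma abs_mul_avg_le {c : ℝ} (hc : 0 ≤ c) {g b : ℝ → ℝ}
    (hb : Continuous b) (s : ℝ) (h : ∀ σ ∈ Icc (0:ℝ) 1, |g (σ * s)| ≤ b σ) :
    |s * avg c g s| ≤ |s| * ∫ σ in (0:ℝ)..1, b σ := by
  rw [abs_mul]
  refine mul_le_mul_of_nonneg_left ?_ (abs_nonneg s)
  rw [avg, ← Real.norm_eq_abs]
  refine intervalIntegral.norm_integral_le_of_norm_le zero_le_one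
    (Eventually.of_forall fun σ hσ => ?_) (hb.intervalIntegrable _ _)
  rw [Real.norm_eq_abs, abs_mul, abs_of_nonneg (Real.rpow_nonneg hσ.1.le _)]
  calc σ ^ c * |g (σ * s)| ≤ 1 * b σ :=
        mul_le_mul (Real.rpow_le_one hσ.1.le hσ.2 hc) (h σ ⟨hσ.1.le, hσ.2⟩) (abs_nonneg _)
          zero_le_one
    _ = b σ := one_mul _

lemma avg_sub {c : ℝ} (hc : 0 ≤ c) {g₁ g₂ : ℝ → ℝ} (h₁ : Continuous g₁) (h₂ : Continuous g₂)
    (s : ℝ) : avg c g₁ s - avg c g₂ s = avg c (fun t => g₁ t - g₂ t) s := by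
  have hp := Real.continuous_rpow_const hc
  rw [avg, avg, avg, ← intervalIntegral.integral_sub]
  · congr 1; funext σ; ring
  · exact (hp.mul (h₁.comp (continuous_id.mul continuous_const))).intervalIntegrable _ _
  · exact (hp.mul (h₂.comp (continuous_id.mul continuous_const))).intervalIntegrable _ _

lemma exists_volterra (f : ℝ → ℝ × ℝ → ℝ × ℝ) (hf : Continuous (Function.uncurry f))
    (M L c : ℝ) (hL : 0 ≤ L) (hc : 0 ≤ c) (hM : ∀ s X, ‖f s X‖ ≤ M)
    (hLip : ∀ s X Y, ‖f s X - f s Y‖ ≤ L * (1 + |s|) * ‖X - Y‖) :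
    ∃ X : ℝ → ℝ × ℝ, Continuous X ∧ ∀ s, X s = (1 + s * avg 0 (fun t => (f t (X t)).1) s,
      s * avg c (fun t => (f t (X t)).2) s) := by
  set K : ℝ := 2 * L + 1 with hK
  have hK0 : 0 < K := by linarith
  set φ : ℝ → ℝ := fun s => Real.exp (K * (|s| + s ^ 2 / 2)) with hφ
  have hφc : Continuous φ := by fun_prop
  have hφpos : ∀ s, 0 < φ s := fun s => Real.exp_pos _
  have hM0 : 0 ≤ M := le_trans (norm_nonneg _) (hM 0 0)
  let st : (ℝ →ᵇ ℝ × ℝ) → ℝ → ℝ × ℝ := fun Z t => ((1:ℝ), (0:ℝ)) + φ t • Z t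
  have hst : ∀ Z, Continuous (st Z) := fun Z => continuous_const.add (hφc.smul Z.continuous)
  let h₁ : (ℝ →ᵇ ℝ × ℝ) → ℝ → ℝ := fun Z t => (f t (st Z t)).1
  let h₂ : (ℝ →ᵇ ℝ × ℝ) → ℝ → ℝ := fun Z t => (f t (st Z t)).2
  have hh₁ : ∀ Z, Continuous (h₁ Z) := fun Z =>
    (hf.comp (continuous_id.prodMk (hst Z))).fst
  have hh₂ : ∀ Z, Continuous (h₂ Z) := fun Z =>
    (hf.comp (continuous_id.prodMk (hst Z))).snd
  let raw : (ℝ →ᵇ ℝ × ℝ) → ℝ → ℝ × ℝ := fun Z s =>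
    (φ s)⁻¹ • (s * avg 0 (h₁ Z) s, s * avg c (h₂ Z) s)
  have hrawc : ∀ Z, Continuous (raw Z) := fun Z =>
    (hφc.inv₀ fun s => (hφpos s).ne').smul
      ((continuous_id.mul (avg_continuous le_rfl (hh₁ Z))).prodMk
        (continuous_id.mul (avg_continuous hc (hh₂ Z))))
  have hrawb : ∀ Z s, ‖raw Z s‖ ≤ M / K := by
    intro Z s
    have hb : ∀ (d : ℝ) (g : ℝ → ℝ), 0 ≤ d → (∀ t, |g t| ≤ M) → |s * avg d g s| ≤ |s| * M := by
      intro d g hd hg
      simpa using abs_mul_avg_le hd (b := fun _ => M) continuous_const s fun σ _ => hg _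
    have e1 : ∀ t, |h₁ Z t| ≤ M := fun t => (norm_fst_le _).trans (hM t _)
    have e2 : ∀ t, |h₂ Z t| ≤ M := fun t => (norm_snd_le _).trans (hM t _)
    have hexp : K * |s| ≤ φ s := by
      have := Real.add_one_le_exp (K * (|s| + s ^ 2 / 2))
      have h2 : 0 ≤ K * (s ^ 2 / 2) := by positivity
      simp only [hφ]; nlinarith
    simp only [raw, norm_smul, norm_inv, Real.norm_eq_abs, abs_of_pos (hφpos s), Prod.norm_def]
    rw [inv_mul_le_iff₀ (hφpos s)]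
    have : |s| * M ≤ φ s * (M / K) := by
      rw [mul_div_assoc', le_div_iff₀ hK0]; nlinarith
    exact max_le ((hb 0 _ le_rfl e1).trans this) ((hb c _ hc e2).trans this)
  let op : (ℝ →ᵇ ℝ × ℝ) → (ℝ →ᵇ ℝ × ℝ) := fun Z =>
    BoundedContinuousFunction.ofNormedAddCommGroup (raw Z) (hrawc Z) (M / K) (hrawb Z)
  have hint : ∀ s : ℝ, |s| * ∫ σ in (0:ℝ)..1, L * (1 + σ * |s|) * φ (σ * s) ≤
      φ s / 2 := by
    intro s
    let ψ : ℝ → ℝ := fun σ => Real.exp (K * (σ * |s| + σ ^ 2 * s ^ 2 / 2))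
    have hψd : ∀ σ ∈ uIcc (0:ℝ) 1, HasDerivAt ψ (ψ σ * (K * (|s| + σ * s ^ 2))) σ := by
      intro σ _
      have h := (((hasDerivAt_id σ).mul_const |s|).add
        ((((hasDerivAt_id σ).pow 2).mul_const (s ^ 2)).div_const 2)).const_mul K
      refine h.exp.congr_deriv ?_
      simp only [ψ, id, Pi.add_apply, Pi.pow_apply]; push_cast; ring
    have hψc : Continuous fun σ => ψ σ * (K * (|s| + σ * s ^ 2)) := by fun_prop
    have hftc := intervalIntegral.integral_eq_sub_of_hasDerivAt hψd (hψc.intervalIntegrable _ _)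
    have heq : ∀ σ ∈ uIcc (0:ℝ) 1, |s| * (L * (1 + σ * |s|) * φ (σ * s)) =
        L / K * (ψ σ * (K * (|s| + σ * s ^ 2))) := by
      intro σ hσ
      rw [uIcc_of_le zero_le_one] at hσ
      simp only [hφ, ψ, abs_mul, abs_of_nonneg hσ.1, mul_pow]
      field_simp
      rw [← sq_abs s]; ring
    rw [← intervalIntegral.integral_const_mul, intervalIntegral.integral_congr heq,
      intervalIntegral.integral_const_mul, hftc]
    have hψ1 : ψ 1 = φ s := by simp [ψ, hφ]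
    have hψ0 : ψ 0 = 1 := by simp [ψ]
    have hLK : L / K ≤ 1 / 2 := by rw [div_le_iff₀ hK0]; linarith
    have h1 : 1 ≤ φ s := Real.one_le_exp (by positivity)
    rw [hψ1, hψ0]
    calc L / K * (φ s - 1) ≤ 1 / 2 * (φ s - 1) := by gcongr
      _ ≤ φ s / 2 := by linarith
  have hop : ContractingWith (1 / 2 : ℝ≥0) op := by
    refine ⟨?_, LipschitzWith.of_dist_le_mul fun Z₁ Z₂ => ?_⟩
    · rw [← NNReal.coe_lt_coe]; push_cast; norm_num
    rw [BoundedContinuousFunction.dist_le (by positivity)]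
    intro s
    simp only [op, BoundedContinuousFunction.coe_ofNormedAddCommGroup, dist_eq_norm, raw,
      ← smul_sub, Prod.mk_sub_mk, norm_smul, norm_inv, Real.norm_eq_abs, abs_of_pos (hφpos s),
      Prod.norm_def]
    rw [inv_mul_le_iff₀ (hφpos s)]
    set d := ‖Z₁ - Z₂‖ with hd
    have hpt : ∀ t, ‖f t (st Z₁ t) - f t (st Z₂ t)‖ ≤ L * (1 + |t|) * φ t * d := by
      intro t
      refine (hLip t _ _).trans ?_
      have : ‖st Z₁ t - st Z₂ t‖ ≤ φ t * d := by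
        simp only [st, add_sub_add_left_eq_sub, ← smul_sub, norm_smul, Real.norm_eq_abs,
          abs_of_pos (hφpos t)]
        refine mul_le_mul_of_nonneg_left ?_ (hφpos t).le
        rw [hd, ← dist_eq_norm, ← dist_eq_norm]; exact BoundedContinuousFunction.dist_coe_le_dist t
      calc L * (1 + |t|) * ‖st Z₁ t - st Z₂ t‖ ≤ L * (1 + |t|) * (φ t * d) := by gcongr
        _ = _ := by ring
    have main : ∀ (e : ℝ) (g₁ g₂ : ℝ → ℝ), 0 ≤ e → Continuous g₁ → Continuous g₂ →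
        (∀ t, |g₁ t - g₂ t| ≤ L * (1 + |t|) * φ t * d) →
        |s * avg e g₁ s - s * avg e g₂ s| ≤ φ s * ((1/2 : ℝ) * d) := by
      intro e g₁ g₂ he hg₁ hg₂ hg
      rw [← mul_sub, avg_sub he hg₁ hg₂]
      refine (abs_mul_avg_le he (b := fun σ => L * (1 + σ * |s|) * φ (σ * s) * d)
        (by fun_prop) s ?_).trans ?_
      · intro σ hσ
        refine (hg _).trans (le_of_eq ?_)
        rw [abs_mul, abs_of_nonneg hσ.1]
      · rw [intervalIntegral.integral_mul_const, ← mul_assoc]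
        calc _ ≤ φ s / 2 * d := mul_le_mul_of_nonneg_right (hint s) (norm_nonneg _)
          _ = _ := by ring
    rw [show ((1/2 : ℝ≥0) : ℝ) = 1/2 by push_cast; rfl]
    exact max_le
      (main 0 _ _ le_rfl (hh₁ Z₁) (hh₁ Z₂) fun t => (norm_fst_le _).trans (hpt t))
      (main c _ _ hc (hh₂ Z₁) (hh₂ Z₂) fun t => (norm_snd_le _).trans (hpt t))
  set Z := hop.fixedPoint with hZ
  refine ⟨st Z, hst Z, fun s => ?_⟩
  have hfix : raw Z s = Z s := congrArg (fun W : ℝ →ᵇ ℝ × ℝ => W s) hop.fixedPoint_isFixedPt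
  change ((1:ℝ), (0:ℝ)) + φ s • Z s = (1 + s * avg 0 (h₁ Z) s, s * avg c (h₂ Z) s)
  rw [← hfix]
  simp only [raw, smul_inv_smul₀ (hφpos s).ne', Prod.mk_add_mk, zero_add]

end Vale.Agent.P252
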