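import Vale.Agent.P252.Picard

namespace Vale.Agent.P252

open MeasureTheory Set Filter Topology intervalIntegral
open scoped ContDiff NNReal

/-- Smooth cutoff equal to the identity near the centre. -/
noncomputable def cut {m : ℝ} (b : ContDiffBump m) (x : ℝ) : ℝ := m + (x - m) * b x

lemma cut_eventually {m : ℝ} (b : ContDiffBump m) {x : ℝ} (h : |x - m| < b.rIn) :
    cut b =ᶠ[𝓝 x] id := by
  filter_upwards [b.eventuallyEq_one_of_mem_ball (x := x) (by rwa [Metric.mem_ball, Real.dist_eq])]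
    with y hy
  simp [cut, hy]

lemma cut_eq {m : ℝ} (b : ContDiffBump m) {x : ℝ} (h : |x - m| < b.rIn) : cut b x = x :=
  (cut_eventually b h).eq_of_nhds

lemma cut_mem {m : ℝ} (b : ContDiffBump m) (x : ℝ) :
    cut b x ∈ Icc (m - b.rOut) (m + b.rOut) := by
  have h : |(x - m) * b x| ≤ b.rOut := by
    rcases le_or_gt b.rOut (dist x m) with h | h
    · rw [b.zero_of_le_dist h, mul_zero, abs_zero]; exact b.rOut_pos.le
    · rw [abs_mul, abs_of_nonneg b.nonneg]
      rw [Real.dist_eq] at h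
      calc |x - m| * b x ≤ b.rOut * 1 := mul_le_mul h.le b.le_one b.nonneg b.rOut_pos.le
        _ = _ := mul_one _
  have := abs_le.1 h
  constructor <;> simp only [cut] <;> linarith

lemma cut_smooth {m : ℝ} (b : ContDiffBump m) : ContDiff ℝ ∞ (cut b) := by
  unfold cut
  exact contDiff_const.add ((contDiff_id.sub contDiff_const).mul b.contDiff)

lemma cut_lip {m : ℝ} (b : ContDiffBump m) :
    ∃ C : ℝ, 0 ≤ C ∧ ∀ x y, |cut b x - cut b y| ≤ C * |x - y| := by
  obtain ⟨C, hC⟩ := ContDiff.lipschitzWith_of_hasCompactSupport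
    (f := fun x => (x - m) * b x) (n := (∞ : WithTop ℕ∞))
    b.hasCompactSupport.mul_left ((contDiff_id.sub contDiff_const).mul b.contDiff) (by simp)
  refine ⟨C, C.2, fun x y => ?_⟩
  have := hC.dist_le_mul x y
  simpa [cut, Real.dist_eq] using this

noncomputable def bU : ContDiffBump (1/2 : ℝ) := ⟨1, 2, by norm_num, by norm_num⟩
noncomputable def bO : ContDiffBump (13/20 : ℝ) := ⟨9/20, 11/20, by norm_num, by norm_num⟩
noncomputable def bZ : ContDiffBump (9/4 : ℝ) := ⟨3, 4, by norm_num, by norm_num⟩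

/-- The rational right-hand side. -/
noncomputable def Rf (k z o : ℝ) : ℝ :=
  (2 * z + 2 * k + 3 + (1 / o - 1) * (2 * k + 6)) / (2 * (k + 2 * z))

noncomputable def Ff (k : ℝ) (q : ℝ × ℝ × ℝ) : ℝ × ℝ :=
  (q.1 * (q.1 * q.2.1 ^ (1 / k)) * (Rf k q.2.2 q.2.1 / k - 1 / 2),
    -(q.1 * q.2.1 ^ (1 / k)) * q.2.1 * Rf k q.2.2 q.2.1)

noncomputable def Yf (k : ℝ) (p : ℝ × ℝ) : ℝ := p.1 * p.2 ^ (1 / k)

noncomputable def clampPO (X : ℝ × ℝ) : ℝ × ℝ := (cut bU X.1, cut bO (1 + X.2))

noncomputable def fld (k s : ℝ) (X : ℝ × ℝ) : ℝ × ℝ :=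
  Ff k ((clampPO X).1, (clampPO X).2, cut bZ (s * Yf k (clampPO X)))

abbrev boxPO : Set (ℝ × ℝ) := Icc (-(3/2)) (5/2) ×ˢ Icc (1/10) (6/5)
abbrev boxQ : Set (ℝ × ℝ × ℝ) := Icc (-(3/2)) (5/2) ×ˢ Icc (1/10) (6/5) ×ˢ Icc (-(7/4)) (25/4)

lemma cU_mem (x : ℝ) : cut bU x ∈ Icc (-(3/2) : ℝ) (5/2) := by
  have h := cut_mem bU x
  simp only [bU, mem_Icc] at h ⊢; constructor <;> linarith [h.1, h.2]

lemma cO_mem (x : ℝ) : cut bO x ∈ Icc (1/10 : ℝ) (6/5) := by
  have h := cut_mem bO x
  simp only [bO, mem_Icc] at h ⊢; constructor <;> linarith [h.1, h.2]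

lemma cO_pos (x : ℝ) : 0 < cut bO x := lt_of_lt_of_le (by norm_num) (cO_mem x).1

lemma cZ_mem (x : ℝ) : cut bZ x ∈ Icc (-(7/4) : ℝ) (25/4) := by
  have h := cut_mem bZ x
  simp only [bZ, mem_Icc] at h ⊢; constructor <;> linarith [h.1, h.2]

lemma Ff_smoothAt {k : ℝ} (hk : 9 ≤ k) {q : ℝ × ℝ × ℝ} (h : q ∈ boxQ) :
    ContDiffAt ℝ ∞ (Ff k) q := by
  obtain ⟨-, ho, hz⟩ := h
  have ho0 : q.2.1 ≠ 0 := by linarith [ho.1]
  have hden : 2 * (k + 2 * q.2.2) ≠ 0 := by linarith [hz.1]
  have h1 : ContDiffAt ℝ ∞ (fun q : ℝ × ℝ × ℝ => q.1) q := contDiffAt_fst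
  have h2 : ContDiffAt ℝ ∞ (fun q : ℝ × ℝ × ℝ => q.2.1) q := contDiffAt_snd.fst
  have h3 : ContDiffAt ℝ ∞ (fun q : ℝ × ℝ × ℝ => q.2.2) q := contDiffAt_snd.snd
  have hR : ContDiffAt ℝ ∞ (fun q : ℝ × ℝ × ℝ => Rf k q.2.2 q.2.1) q := by
    unfold Rf
    exact ((((contDiffAt_const.mul h3).add contDiffAt_const).add contDiffAt_const).add
      (((contDiffAt_const.div h2 ho0).sub contDiffAt_const).mul contDiffAt_const)).div
      (contDiffAt_const.mul (contDiffAt_const.add (contDiffAt_const.mul h3))) hden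
  have hp : ContDiffAt ℝ ∞ (fun q : ℝ × ℝ × ℝ => q.1 * q.2.1 ^ (1 / k)) q :=
    h1.mul (h2.rpow_const_of_ne ho0)
  exact ((h1.mul hp).mul ((hR.div_const k).sub contDiffAt_const)).prodMk ((hp.neg.mul h2).mul hR)

lemma Yf_smoothAt {k : ℝ} {p : ℝ × ℝ} (h : p ∈ boxPO) : ContDiffAt ℝ ∞ (Yf k) p := by
  have ho0 : p.2 ≠ 0 := by linarith [h.2.1]
  exact contDiffAt_fst.mul (contDiffAt_snd.rpow_const_of_ne ho0)

lemma clampPO_mem (X : ℝ × ℝ) : clampPO X ∈ boxPO := ⟨cU_mem _, cO_mem _⟩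

lemma clampPO_smooth : ContDiff ℝ ∞ clampPO :=
  ((cut_smooth bU).comp contDiff_fst).prodMk
    ((cut_smooth bO).comp (contDiff_const.add contDiff_snd))

lemma Yf_clamp_smooth {k : ℝ} : ContDiff ℝ ∞ (fun X => Yf k (clampPO X)) :=
  contDiff_iff_contDiffAt.2 fun X =>
    (Yf_smoothAt (clampPO_mem X)).comp X clampPO_smooth.contDiffAt

lemma fld_smooth {k : ℝ} (hk : 9 ≤ k) :
    ContDiff ℝ ∞ (fun p : ℝ × ℝ × ℝ => fld k p.1 p.2) := by
  refine contDiff_iff_contDiffAt.2 fun p => ?_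
  have hin : ContDiff ℝ ∞ (fun p : ℝ × ℝ × ℝ =>
      ((clampPO p.2).1, (clampPO p.2).2, cut bZ (p.1 * Yf k (clampPO p.2)))) :=
    ((clampPO_smooth.comp contDiff_snd).fst).prodMk
      (((clampPO_smooth.comp contDiff_snd).snd).prodMk
        ((cut_smooth bZ).comp (contDiff_fst.mul (Yf_clamp_smooth.comp contDiff_snd))))
  have hmem : ((clampPO p.2).1, (clampPO p.2).2, cut bZ (p.1 * Yf k (clampPO p.2))) ∈ boxQ :=
    ⟨(clampPO_mem p.2).1, (clampPO_mem p.2).2, cZ_mem _⟩
  exact ContDiffAt.comp (g := Ff k) p (Ff_smoothAt hk hmem) hin.contDiffAt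

lemma fld_bdd_lip {k : ℝ} (hk : 9 ≤ k) : ∃ M L : ℝ, 0 ≤ L ∧ (∀ s X, ‖fld k s X‖ ≤ M) ∧
    ∀ s X Y, ‖fld k s X - fld k s Y‖ ≤ L * (1 + |s|) * ‖X - Y‖ := by
  have hcQ : IsCompact boxQ := isCompact_Icc.prod (isCompact_Icc.prod isCompact_Icc)
  have hvQ : Convex ℝ boxQ := (convex_Icc _ _).prod ((convex_Icc _ _).prod (convex_Icc _ _))
  have hcP : IsCompact boxPO := isCompact_Icc.prod isCompact_Icc
  have hvP : Convex ℝ boxPO := (convex_Icc _ _).prod (convex_Icc _ _)
  have hF : ContDiffOn ℝ ∞ (Ff k) boxQ := fun q hq => (Ff_smoothAt hk hq).contDiffWithinAt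
  have hY : ContDiffOn ℝ ∞ (Yf k) boxPO := fun q hq => (Yf_smoothAt hq).contDiffWithinAt
  obtain ⟨M, hM⟩ := hcQ.exists_bound_of_continuousOn hF.continuousOn
  obtain ⟨KF, hKF⟩ := hF.exists_lipschitzOnWith (by simp) hvQ hcQ
  obtain ⟨KY, hKY⟩ := hY.exists_lipschitzOnWith (by simp) hvP hcP
  obtain ⟨CU, hCU0, hCU⟩ := cut_lip bU
  obtain ⟨CO, hCO0, hCO⟩ := cut_lip bO
  obtain ⟨CZ, hCZ0, hCZ⟩ := cut_lip bZ
  have hmem : ∀ s X, ((clampPO X).1, (clampPO X).2, cut bZ (s * Yf k (clampPO X))) ∈ boxQ :=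
    fun s X => ⟨(clampPO_mem X).1, (clampPO_mem X).2, cZ_mem _⟩
  refine ⟨M, KF * ((CU + CO) * (1 + CZ * KY)), by positivity, fun s X => hM _ (hmem s X), ?_⟩
  intro s X X'
  have h1 := hKF.norm_sub_le (hmem s X) (hmem s X')
  refine h1.trans ?_
  rw [mul_assoc, mul_assoc]
  refine mul_le_mul_of_nonneg_left ?_ KF.2
  set C := CU + CO with hC
  have hC0 : 0 ≤ C := by positivity
  have hcl : ‖clampPO X - clampPO X'‖ ≤ C * ‖X - X'‖ := by
    rw [Prod.norm_def]
    have e1 : |X.1 - X'.1| ≤ ‖X - X'‖ := norm_fst_le (X - X')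
    have e2 : |X.2 - X'.2| ≤ ‖X - X'‖ := norm_snd_le (X - X')
    have n := norm_nonneg (X - X')
    refine max_le ?_ ?_
    · refine (hCU X.1 X'.1).trans ?_
      calc CU * |X.1 - X'.1| ≤ CU * ‖X - X'‖ := mul_le_mul_of_nonneg_left e1 hCU0
        _ ≤ C * ‖X - X'‖ := mul_le_mul_of_nonneg_right (by linarith) n
    · refine (hCO _ _).trans ?_
      calc CO * |1 + X.2 - (1 + X'.2)| ≤ CO * ‖X - X'‖ :=
            mul_le_mul_of_nonneg_left (by simpa using e2) hCO0
        _ ≤ C * ‖X - X'‖ := mul_le_mul_of_nonneg_right (by linarith) n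
  have hz : |cut bZ (s * Yf k (clampPO X)) - cut bZ (s * Yf k (clampPO X'))| ≤
      CZ * KY * C * |s| * ‖X - X'‖ := by
    refine (hCZ _ _).trans ?_
    rw [← mul_sub, abs_mul]
    have h2 : |Yf k (clampPO X) - Yf k (clampPO X')| ≤ KY * (C * ‖X - X'‖) :=
      (hKY.norm_sub_le (clampPO_mem X) (clampPO_mem X')).trans
        (mul_le_mul_of_nonneg_left hcl KY.2)
    calc CZ * (|s| * |Yf k (clampPO X) - Yf k (clampPO X')|)
        ≤ CZ * (|s| * (KY * (C * ‖X - X'‖))) := by gcongr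
      _ = _ := by ring
  have hs := abs_nonneg s
  have n := norm_nonneg (X - X')
  have b1 : C * ‖X - X'‖ ≤ C * (1 + CZ * KY) * ((1 + |s|) * ‖X - X'‖) := by
    have : 1 * 1 ≤ (1 + CZ * KY) * (1 + |s|) :=
      mul_le_mul (le_add_of_nonneg_right (by positivity)) (by linarith) zero_le_one (by positivity)
    calc C * ‖X - X'‖ = C * ‖X - X'‖ * 1 := by ring
      _ ≤ C * ‖X - X'‖ * ((1 + CZ * KY) * (1 + |s|)) := by
          gcongr; simpa using this
      _ = _ := by ring
  simp only [Prod.norm_def, Prod.fst_sub, Prod.snd_sub]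
  simp only [Prod.norm_def, Prod.fst_sub, Prod.snd_sub] at hcl b1 hz
  refine max_le ((le_max_left _ _).trans (hcl.trans b1))
    (max_le ((le_max_right _ _).trans (hcl.trans b1)) (hz.trans ?_))
  have : CZ * KY * C * |s| ≤ C * (1 + CZ * KY) * (1 + |s|) := by
    have e : C * (1 + CZ * KY) * (1 + |s|) =
        CZ * KY * C * |s| + (C + C * |s| + CZ * KY * C) := by ring
    have : 0 ≤ C + C * |s| + CZ * KY * C := by positivity
    linarith
  calc _ ≤ C * (1 + CZ * KY) * (1 + |s|) * max ‖X.1 - X'.1‖ ‖X.2 - X'.2‖ :=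
        mul_le_mul_of_nonneg_right this (by positivity)
    _ = _ := by ring

lemma hasDerivAt_pos_sq (x : ℝ) :
    HasDerivAt (fun x : ℝ => max x 0 ^ 2) (2 * max x 0) x := by
  rcases lt_trichotomy x 0 with h | h | h
  · rw [max_eq_right h.le, mul_zero]
    refine (hasDerivAt_const x (0:ℝ)).congr_of_eventuallyEq ?_
    filter_upwards [eventually_lt_nhds h] with y hy
    simp [max_eq_right hy.le]
  · subst h
    rw [hasDerivAt_iff_isLittleO_nhds_zero]
    simp only [zero_add, max_self, mul_zero, smul_zero, sub_zero, ne_eq, OfNat.ofNat_ne_zero,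
      not_false_eq_true, zero_pow]
    refine Asymptotics.IsBigO.trans_isLittleO ?_ (Asymptotics.isLittleO_pow_id (n := 2) (by norm_num))
    refine Asymptotics.IsBigO.of_bound 1 (Eventually.of_forall fun y => ?_)
    simp only [Real.norm_eq_abs, abs_pow, one_mul, sq_abs]
    rcases le_total y 0 with hy | hy
    · rw [max_eq_right hy]; nlinarith [sq_nonneg y]
    · rw [max_eq_left hy]
  · rw [max_eq_left h.le]
    refine ((hasDerivAt_pow 2 x).congr_of_eventuallyEq ?_).congr_deriv (by simp)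
    filter_upwards [eventually_gt_nhds h] with y hy
    simp [max_eq_left hy.le]

/-- If a nonnegative function vanishes initially and satisfies `φ' ≤ C φ`, it vanishes. -/
lemma gronwall_zero {a b C : ℝ} {φ φ' : ℝ → ℝ}
    (hd : ∀ t ∈ Icc a b, HasDerivAt φ (φ' t) t) (hle : ∀ t ∈ Icc a b, φ' t ≤ C * φ t)
    (ha : φ a ≤ 0) : ∀ t ∈ Icc a b, φ t ≤ 0 := by
  intro t ht
  let E : ℝ → ℝ := fun t => Real.exp (-C * t) * φ t
  have hE : ∀ t ∈ Icc a b, HasDerivAt E (Real.exp (-C * t) * (φ' t - C * φ t)) t := by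
    intro t ht
    have h1 : HasDerivAt (fun t => Real.exp (-C * t)) (Real.exp (-C * t) * -C) t := by
      simpa using ((hasDerivAt_id t).const_mul (-C)).exp
    exact (h1.mul (hd t ht)).congr_deriv (by ring)
  have hanti : AntitoneOn E (Icc a b) := by
    refine antitoneOn_of_hasDerivWithinAt_nonpos (convex_Icc a b)
      (fun t ht => (hE t ht).continuousAt.continuousWithinAt)
      (fun t ht => (hE t (interior_subset ht)).hasDerivWithinAt) fun t ht => ?_
    exact mul_nonpos_of_nonneg_of_nonpos (Real.exp_pos _).le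
      (by linarith [hle t (interior_subset ht)])
  have h := hanti ⟨le_rfl, ht.1.trans ht.2⟩ ht ht.1
  have h2 : E a ≤ 0 := mul_nonpos_of_nonneg_of_nonpos (Real.exp_pos _).le ha
  exact nonpos_of_mul_nonpos_right (h.trans h2) (Real.exp_pos _)

lemma invariant_box {k T : ℝ} (hk : 9 ≤ k) (hT : 0 ≤ T) {U o Y B g : ℝ → ℝ}
    (hU0 : U 0 = 1) (ho0 : o 0 = 1) (hgc : Continuous g) (hYc : Continuous Y)
    (hbx : ∀ t ∈ Icc 0 T, (1/5 < o t ∧ o t < 11/10) ∧ (-(3/4) < t * Y t ∧ t * Y t < 21/4))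
    (dU : ∀ t ∈ Icc 0 T, HasDerivAt U (U t * g t) t)
    (hgdef : ∀ t ∈ Icc 0 T, g t = Y t * (Rf k (t * Y t) (o t) / k - 1/2))
    (hYeq : ∀ t ∈ Icc 0 T, Y t = U t * o t ^ (1 / k))
    (dY : ∀ t ∈ Icc 0 T, HasDerivAt Y (Y t * (B t - Y t) / 2) t)
    (do_ : ∀ t ∈ Icc 0 T,
      HasDerivAt o (-o t * (Y t * Rf k (t * Y t) (o t) - k / 2 * B t)) t)
    (hsB : ∀ t ∈ Icc 0 T, t * B t = 1 / o t - 1) :
    ∀ t ∈ Icc 0 T, (0 ≤ U t ∧ U t ≤ 1) ∧ (2/7 ≤ o t ∧ o t ≤ 1) ∧
      (0 ≤ t * Y t ∧ t * Y t ≤ 9/2) := by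
  have hk0 : (0:ℝ) < k := by linarith
  have hIg : ∀ t, HasDerivAt (fun t => ∫ r in (0:ℝ)..t, g r) (g t) t :=
    fun t => (hgc.integral_hasStrictDerivAt 0 t).hasDerivAt
  have hUpos : ∀ t ∈ Icc 0 T, 0 < U t := by
    intro t ht
    let E : ℝ → ℝ := fun t => U t * Real.exp (-∫ r in (0:ℝ)..t, g r)
    have hE : ∀ t ∈ Icc 0 T, HasDerivAt E 0 t := fun t ht =>
      ((dU t ht).mul (hIg t).neg.exp).congr_deriv
        (by simp only [Pi.neg_apply]; ring)
    have h1 : E t = E 0 := constant_of_has_deriv_right_zero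
      (fun t ht => (hE t ht).continuousAt.continuousWithinAt)
      (fun t ht => (hE t (Ico_subset_Icc_self ht)).hasDerivWithinAt) t ht
    have h2 : E 0 = 1 := by simp [E, hU0]
    have h3 : 0 < U t * Real.exp (-∫ r in (0:ℝ)..t, g r) := by
      change 0 < E t; rw [h1, h2]; exact one_pos
    exact pos_of_mul_pos_left h3 (Real.exp_pos _).le
  have hYpos : ∀ t ∈ Icc 0 T, 0 < Y t := by
    intro t ht
    rw [hYeq t ht]
    exact mul_pos (hUpos t ht) (Real.rpow_pos_of_pos (by linarith [(hbx t ht).1.1]) _)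
  let w : ℝ → ℝ := fun t => 1 / o t - 1
  let z : ℝ → ℝ := fun t => t * Y t
  have hz : ∀ t ∈ Icc 0 T, HasDerivAt z (Y t * (2 + w t - z t) / 2) t := by
    intro t ht
    refine ((hasDerivAt_id t).mul (dY t ht)).congr_deriv ?_
    simp only [w, z, id, ← hsB t ht]; ring
  have hw : ∀ t ∈ Icc 0 T,
      HasDerivAt w ((Y t * Rf k (z t) (o t) - k / 2 * B t) / o t) t := by
    intro t ht
    have ho : o t ≠ 0 := by linarith [(hbx t ht).1.1]
    have h := (((do_ t ht).inv ho).sub_const 1)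
    have he : w = fun t => (o t)⁻¹ - 1 := by funext t; simp [w, one_div]
    rw [he]
    exact h.congr_deriv (by simp only [z]; field_simp)
  have hwt : ∀ t ∈ Icc 0 T, 0 < t →
      (Y t * Rf k (z t) (o t) - k / 2 * B t) / o t =
      (z t * (2 * z t + 2 * k + 3) - w t * (k ^ 2 - 6 * z t)) /
        (2 * (k + 2 * z t) * t * o t) := by
    intro t ht htp
    have ho : o t ≠ 0 := by linarith [(hbx t ht).1.1]
    have hzz : 0 < k + 2 * z t := by
      have := (hbx t ht).2.1; simp only [z]; linarith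
    have hB : B t = w t / t := by
      rw [eq_div_iff htp.ne', mul_comm]; exact hsB t ht
    rw [hB]
    have hzY : Y t = z t / t := by rw [eq_div_iff htp.ne']; simp only [z]; ring
    simp only [Rf, show 1 / o t - 1 = w t from rfl, hzY]
    generalize z t = a at hzz ⊢
    generalize w t = b
    have h1 : t * (2 * (k + 2 * a)) ≠ 0 := mul_ne_zero htp.ne' (by linarith)
    have h2 : (2:ℝ) * t ≠ 0 := mul_ne_zero two_ne_zero htp.ne'
    have h3 : 2 * (k + 2 * a) * t ≠ 0 := mul_ne_zero (by linarith) htp.ne'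
    rw [← div_div (a * (2 * a + 2 * k + 3) - b * (k ^ 2 - 6 * a))]
    congr 1
    rw [div_mul_div_comm, div_mul_div_comm, div_sub_div _ _ h1 h2,
      div_eq_div_iff (mul_ne_zero h1 h2) h3]
    ring
  have hz0 : ∀ t ∈ Icc 0 T, 0 ≤ z t := fun t ht => mul_nonneg ht.1 (hYpos t ht).le
  have hw0 : ∀ t ∈ Icc 0 T, 0 ≤ w t := by
    intro t ht
    let ψ : ℝ → ℝ := fun t => max (-w t) 0 ^ 2
    have hψ : ∀ t ∈ Icc 0 T, HasDerivAt ψ
        (2 * max (-w t) 0 * -((Y t * Rf k (z t) (o t) - k / 2 * B t) / o t)) t :=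
      fun t ht => HasDerivAt.comp (h₂ := fun x : ℝ => max x 0 ^ 2) t (hasDerivAt_pos_sq (-w t)) (hw t ht).neg
    have hanti : AntitoneOn ψ (Icc 0 T) := by
      refine antitoneOn_of_hasDerivWithinAt_nonpos (convex_Icc _ _)
        (fun t ht => (hψ t ht).continuousAt.continuousWithinAt)
        (fun t ht => (hψ t (interior_subset ht)).hasDerivWithinAt) fun t ht => ?_
      rw [interior_Icc] at ht
      have htI := Ioo_subset_Icc_self ht
      rcases le_or_gt 0 (w t) with h | h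
      · rw [max_eq_right (by linarith)]; simp
      · rw [hwt t htI ht.1]
        have ho : 0 < o t := by linarith [(hbx t htI).1.1]
        have hzn := hz0 t htI
        have hz' : z t < 21/4 := (hbx t htI).2.2
        have hN : 0 ≤ z t * (2 * z t + 2 * k + 3) - w t * (k ^ 2 - 6 * z t) := by
          have a1 : 0 ≤ z t * (2 * z t + 2 * k + 3) := mul_nonneg hzn (by linarith)
          have a2 : 0 ≤ (-w t) * (k ^ 2 - 6 * z t) := mul_nonneg (by linarith) (by nlinarith)
          nlinarith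
        have := div_nonneg hN (by have := ht.1; positivity :
          0 ≤ 2 * (k + 2 * z t) * t * o t)
        have := le_max_right (-w t) 0
        nlinarith
    have h := hanti ⟨le_rfl, hT⟩ ht ht.1
    have h00 : ψ 0 = 0 := by simp [ψ, w, ho0]
    rw [h00] at h
    have h4 : max (-w t) 0 = 0 := sq_eq_zero_iff.1 (le_antisymm h (sq_nonneg _))
    linarith [le_max_left (-w t) 0]
  have hup : ∀ t ∈ Icc 0 T, z t ≤ 9/2 ∧ w t ≤ 5/2 := by
    have hzc : Continuous z := continuous_id.mul hYc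
    have hwc0 : ContinuousAt w 0 := (hw 0 ⟨le_rfl, hT⟩).continuousAt
    have hev : ∀ᶠ t in 𝓝 (0:ℝ), z t < 9/2 ∧ w t < 5/2 :=
      (hzc.continuousAt.eventually (eventually_lt_nhds (by simp [z]))).and
        (hwc0.eventually (eventually_lt_nhds (by simp [w, ho0])))
    obtain ⟨δ, hδ, hδ'⟩ := Metric.eventually_nhds_iff.1 hev
    intro t ht
    rcases lt_or_ge t δ with h | h
    · have := hδ' (y := t) (by rw [Real.dist_eq, sub_zero, abs_of_nonneg ht.1]; exact h)
      exact ⟨this.1.le, this.2.le⟩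
    set ε := δ / 2 with hε
    have hε0 : 0 < ε := by linarith
    let φ : ℝ → ℝ := fun t => max (z t - 9/2) 0 ^ 2 + max (w t - 5/2) 0 ^ 2
    let φ' : ℝ → ℝ := fun t => 2 * max (z t - 9/2) 0 * (Y t * (2 + w t - z t) / 2) +
      2 * max (w t - 5/2) 0 * ((Y t * Rf k (z t) (o t) - k / 2 * B t) / o t)
    have hsub : Icc ε t ⊆ Icc 0 T := Icc_subset_Icc hε0.le ht.2
    have hφ : ∀ r ∈ Icc ε t, HasDerivAt φ (φ' r) r := fun r hr =>
      (HasDerivAt.comp (h₂ := fun x : ℝ => max x 0 ^ 2) r (hasDerivAt_pos_sq _)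
        ((hz r (hsub hr)).sub_const (9/2))).add
        (HasDerivAt.comp (h₂ := fun x : ℝ => max x 0 ^ 2) r (hasDerivAt_pos_sq _)
          ((hw r (hsub hr)).sub_const (5/2)))
    have hφε : φ ε ≤ 0 := by
      have := hδ' (y := ε) (by rw [Real.dist_eq, sub_zero, abs_of_pos hε0]; linarith)
      simp only [φ, max_eq_right (by linarith [this.1] : z ε - 9/2 ≤ 0),
        max_eq_right (by linarith [this.2] : w ε - 5/2 ≤ 0)]
      norm_num
    have hle : ∀ r ∈ Icc ε t,
        φ' r ≤ (21/4/ε + (2 * k + 40) / (9/5 * ε)) * φ r := by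
      intro r hr
      have hr0 : 0 < r := lt_of_lt_of_le hε0 hr.1
      have hrI := hsub hr
      have hb := hbx r hrI
      set P := max (z r - 9/2) 0 with hP
      set Q := max (w r - 5/2) 0 with hQ
      have hP0 : 0 ≤ P := le_max_right _ _
      have hQ0 : 0 ≤ Q := le_max_right _ _
      have hPQ : P * Q ≤ P ^ 2 + Q ^ 2 := by nlinarith [sq_nonneg (P - Q)]
      have hYb : Y r ≤ 21/4/ε := by
        rw [le_div_iff₀ hε0]
        calc Y r * ε ≤ Y r * r := mul_le_mul_of_nonneg_left hr.1 (hYpos r hrI).le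
          _ = r * Y r := mul_comm _ _
          _ ≤ 21/4 := hb.2.2.le
      have t1 : 2 * P * (Y r * (2 + w r - z r) / 2) ≤ 21/4/ε * φ r := by
        rcases le_total (z r - 9/2) 0 with h | h
        · rw [hP, max_eq_right h]; simp; positivity
        · have e1 : 2 + w r - z r ≤ Q := by linarith [le_max_left (w r - 5/2) 0]
          calc 2 * P * (Y r * (2 + w r - z r) / 2) = Y r * (P * (2 + w r - z r)) := by ring
            _ ≤ Y r * (P * Q) := by gcongr; exact (hYpos r hrI).le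
            _ ≤ 21/4/ε * (P * Q) := by gcongr
            _ ≤ 21/4/ε * φ r := by gcongr
      have t2 : 2 * Q * ((Y r * Rf k (z r) (o r) - k / 2 * B r) / o r) ≤
          (2 * k + 40) / (9/5 * ε) * φ r := by
        rcases le_total (w r - 5/2) 0 with h | h
        · rw [hQ, max_eq_right h]; simp; positivity
        · rw [hwt r hrI hr0]
          have hzn := hz0 r hrI
          have hz' : z r < 21/4 := hb.2.2
          have hN : z r * (2 * z r + 2 * k + 3) - w r * (k ^ 2 - 6 * z r) ≤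
              P * (2 * k + 40) := by
            have a1 : 0 ≤ (w r - 5/2) * (k ^ 2 - 6 * z r) := mul_nonneg h (by nlinarith)
            rcases le_total (z r - 9/2) 0 with h' | h'
            · rw [hP, max_eq_right h']
              nlinarith [mul_nonneg (sub_nonneg.2 hk) (add_nonneg hk0.le hk0.le)]
            · rw [hP, max_eq_left h']
              nlinarith [mul_nonneg (sub_nonneg.2 hk) (add_nonneg hk0.le hk0.le)]
          have hD : 9/5 * ε ≤ (k + 2 * z r) * r * o r := by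
            calc 9/5 * ε = 9 * ε * (1/5) := by ring
              _ ≤ _ := by
                gcongr
                · linarith
                · exact hr.1
                · exact hb.1.1.le
          have hDp : 0 < (k + 2 * z r) * r * o r := lt_of_lt_of_le (by positivity) hD
          calc 2 * Q * ((z r * (2 * z r + 2 * k + 3) - w r * (k ^ 2 - 6 * z r)) /
                (2 * (k + 2 * z r) * r * o r))
              = Q * (z r * (2 * z r + 2 * k + 3) - w r * (k ^ 2 - 6 * z r)) /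
                ((k + 2 * z r) * r * o r) := by field_simp
            _ ≤ Q * (P * (2 * k + 40)) / ((k + 2 * z r) * r * o r) :=
                div_le_div_of_nonneg_right (mul_le_mul_of_nonneg_left hN hQ0) hDp.le
            _ ≤ Q * (P * (2 * k + 40)) / (9/5 * ε) :=
                div_le_div_of_nonneg_left (by positivity) (by positivity) hD
            _ = (2 * k + 40) / (9/5 * ε) * (P * Q) := by ring
            _ ≤ _ := mul_le_mul_of_nonneg_left hPQ (by positivity)
      simp only [φ', add_mul]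
      exact add_le_add t1 t2
    have h0 : φ t ≤ 0 := gronwall_zero hφ hle hφε t ⟨by linarith, le_rfl⟩
    have a1 := sq_nonneg (max (z t - 9/2) 0)
    have a2 := sq_nonneg (max (w t - 5/2) 0)
    have b1 : max (z t - 9/2) 0 = 0 := sq_eq_zero_iff.1 (by simp only [φ] at h0; linarith)
    have b2 : max (w t - 5/2) 0 = 0 := sq_eq_zero_iff.1 (by simp only [φ] at h0; linarith)
    exact ⟨by linarith [le_max_left (z t - 9/2) 0], by linarith [le_max_left (w t - 5/2) 0]⟩
  intro t ht
  have ho : 0 < o t := by linarith [(hbx t ht).1.1]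
  have hUanti : AntitoneOn U (Icc 0 T) := by
    refine antitoneOn_of_hasDerivWithinAt_nonpos (convex_Icc _ _)
      (fun r hr => (dU r hr).continuousAt.continuousWithinAt) (fun r hr => (dU r (interior_subset hr)).hasDerivWithinAt)
      fun r hr => ?_
    have hrI := interior_subset hr
    refine mul_nonpos_of_nonneg_of_nonpos (hUpos r hrI).le ?_
    rw [hgdef r hrI]
    refine mul_nonpos_of_nonneg_of_nonpos (hYpos r hrI).le ?_
    have hzn := hz0 r hrI
    have hden : 0 < 2 * (k + 2 * z r) := by linarith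
    have : Rf k (z r) (o r) ≤ k / 2 := by
      rw [Rf, div_le_iff₀ hden]
      have := (hup r hrI).2
      simp only [w] at this
      nlinarith [mul_le_mul_of_nonneg_right this (by linarith : (0:ℝ) ≤ 2 * k + 6),
        mul_nonneg (sub_nonneg.2 hk) (by linarith : (0:ℝ) ≤ k + 2), mul_nonneg hzn hk0.le]
    rw [sub_nonpos, div_le_iff₀ hk0]
    linarith
  have h1 := hw0 t ht
  have h2 := (hup t ht).2
  simp only [w] at h1 h2
  refine ⟨⟨(hUpos t ht).le, ?_⟩, ⟨?_, ?_⟩, hz0 t ht, (hup t ht).1⟩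
  · simpa [hU0] using hUanti ⟨le_rfl, hT⟩ ht ht.1
  · have : 1 / o t ≤ 7/2 := by linarith
    rw [div_le_iff₀ ho] at this; linarith
  · have : 1 ≤ 1 / o t := by linarith
    rw [le_div_iff₀ ho] at this; linarith

theorem exists_profile {k : ℝ} (hk : 9 ≤ k) :
    ∃ G Y B om : ℝ → ℝ, ContDiff ℝ ∞ G ∧ G 0 = 1 ∧ (∀ s, 0 < G s) ∧
      ∀ s, 0 ≤ s → 0 < Y s ∧ 0 < om s ∧ s * B s = 1 / om s - 1 ∧
        HasDerivAt G (Y s * G s) s ∧
        HasDerivAt Y (Y s * (B s - Y s) / 2) s ∧
        HasDerivAt om (-om s * (Y s * Rf k (s * Y s) (om s) - k / 2 * B s)) s := by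
  have hk0 : (0:ℝ) < k := by linarith
  obtain ⟨M, L, hL, hM, hLip⟩ := fld_bdd_lip hk
  have hfsm := fld_smooth hk
  obtain ⟨X, hXc, hX⟩ := exists_volterra (fld k) hfsm.continuous M L (k / 2) hL
    (by linarith) hM hLip
  set f1 : ℝ → ℝ := fun t => (fld k t (X t)).1 with hf1
  set f2 : ℝ → ℝ := fun t => (fld k t (X t)).2 with hf2
  set A : ℝ → ℝ := avg (k / 2) f2 with hA
  have hX1 : (fun s => (X s).1) = fun s => 1 + ∫ t in (0:ℝ)..s, f1 t := by
    funext s; rw [hX s]; simp [mul_avg_zero, hf1]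
  have hX2 : (fun s => (X s).2) = fun s => s * A s := by
    funext s; rw [hX s]
  have hfc : Continuous fun t => fld k t (X t) :=
    hfsm.continuous.comp (continuous_id.prodMk hXc)
  have hU : ∀ s, HasDerivAt (fun s => (X s).1) (f1 s) s := by
    intro s; rw [hX1]
    exact ((hfc.fst.integral_hasStrictDerivAt 0 s).hasDerivAt).const_add 1
  have ha : ∀ s, HasDerivAt (fun s => (X s).2) (f2 s - k / 2 * A s) s := by
    intro s; rw [hX2]
    exact hasDerivAt_mul_avg (by linarith) hfc.snd s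
  have hsm : ∀ j : ℕ, ContDiff ℝ j X := by
    intro j
    induction j with
    | zero => exact contDiff_zero.2 hXc
    | succ j ih =>
      have hF : ContDiff ℝ j fun t => fld k t (X t) :=
        (hfsm.of_le (by exact_mod_cast le_top)).comp (contDiff_id.prodMk ih)
      have hAj : ContDiff ℝ j A := contDiff_avg j (by linarith) hF.snd
      have hd : deriv X = fun s => (f1 s, f2 s - k / 2 * A s) :=
        funext fun s => ((hU s).prodMk (ha s)).deriv
      rw [Nat.cast_succ, contDiff_succ_iff_deriv]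
      refine ⟨fun s => ((hU s).prodMk (ha s)).differentiableAt, fun h => absurd h (by simp), ?_⟩
      rw [hd]
      exact hF.fst.prodMk (hF.snd.sub (contDiff_const.mul hAj))
  have hXs : ContDiff ℝ ∞ X := contDiff_infty.2 hsm
  set U : ℝ → ℝ := fun s => (X s).1 with hUdef
  set o : ℝ → ℝ := fun s => 1 + (X s).2 with hodef
  have ho' : ∀ s, HasDerivAt o (f2 s - k / 2 * A s) s := fun s => (ha s).const_add 1
  set Y : ℝ → ℝ := fun s => Yf k (clampPO (X s)) with hYdef
  have hYs : ContDiff ℝ ∞ Y := Yf_clamp_smooth.comp hXs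
  set G : ℝ → ℝ := fun s => Real.exp (∫ t in (0:ℝ)..s, Y t) with hGdef
  have hGd : ∀ s, HasDerivAt G (Y s * G s) s := fun s =>
    ((hYs.continuous.integral_hasStrictDerivAt 0 s).hasDerivAt.exp).congr_deriv
      (by simp only [hGdef]; ring)
  have hGs : ContDiff ℝ ∞ G := by
    refine ContDiff.exp (contDiff_infty_iff_deriv.2 ⟨fun s =>
      (hYs.continuous.integral_hasStrictDerivAt 0 s).hasDerivAt.differentiableAt, ?_⟩)
    have : (deriv fun s => ∫ t in (0:ℝ)..s, Y t) = Y := funext fun s =>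
      (hYs.continuous.integral_hasStrictDerivAt 0 s).hasDerivAt.deriv
    rw [this]; exact hYs
  set B : ℝ → ℝ := fun s => -A s / o s with hBdef
  have hXc1 : Continuous U := hXc.fst
  have hoc : Continuous o := continuous_const.add hXc.snd
  have hYc : Continuous Y := hYs.continuous
  have hX0 : X 0 = (1, 0) := by rw [hX 0]; simp
  -- the open box and the closed region
  let box : Set ℝ := {s | (-(1/2) < U s ∧ U s < 3/2) ∧ (1/5 < o s ∧ o s < 11/10) ∧
    (-(3/4) < s * Y s ∧ s * Y s < 21/4)}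
  let good : Set ℝ := {s | (0 ≤ U s ∧ U s ≤ 1) ∧ (2/7 ≤ o s ∧ o s ≤ 1) ∧
    (0 ≤ s * Y s ∧ s * Y s ≤ 9/2)}
  have hgb : good ⊆ box := by
    rintro s ⟨⟨a1, a2⟩, ⟨b1, b2⟩, c1, c2⟩
    refine ⟨⟨?_, ?_⟩, ⟨?_, ?_⟩, ?_, ?_⟩ <;> linarith
  have hboxo : IsOpen box :=
    ((isOpen_lt continuous_const hXc1).inter (isOpen_lt hXc1 continuous_const)).inter
      (((isOpen_lt continuous_const hoc).inter (isOpen_lt hoc continuous_const)).inter
        ((isOpen_lt continuous_const (continuous_id.mul hYc)).inter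
          (isOpen_lt (continuous_id.mul hYc) continuous_const)))
  have hgoodc : IsClosed good :=
    ((isClosed_le continuous_const hXc1).inter (isClosed_le hXc1 continuous_const)).inter
      (((isClosed_le continuous_const hoc).inter (isClosed_le hoc continuous_const)).inter
        ((isClosed_le continuous_const (continuous_id.mul hYc)).inter
          (isClosed_le (continuous_id.mul hYc) continuous_const)))
  have inU : ∀ s ∈ box, |U s - 1/2| < bU.rIn := by
    rintro s ⟨⟨h1, h2⟩, -, -⟩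
    simp only [bU, abs_lt]; constructor <;> linarith
  have inO : ∀ s ∈ box, |o s - 13/20| < bO.rIn := by
    rintro s ⟨-, ⟨h1, h2⟩, -⟩
    simp only [bO, abs_lt]; constructor <;> linarith
  have inZ : ∀ s ∈ box, |s * Y s - 9/4| < bZ.rIn := by
    rintro s ⟨-, -, h1, h2⟩
    simp only [bZ, abs_lt]; constructor <;> linarith
  have hclamp : ∀ s ∈ box, clampPO (X s) = (U s, o s) := fun s hs =>
    Prod.ext (cut_eq bU (inU s hs)) (cut_eq bO (inO s hs))
  have hYeq : ∀ s ∈ box, Y s = U s * o s ^ (1 / k) := by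
    intro s hs; simp only [hYdef, hclamp s hs, Yf]
  have hval : ∀ s ∈ box, fld k s (X s) = Ff k (U s, o s, s * Y s) := by
    intro s hs
    have hz : cut bZ (s * Y s) = s * Y s := cut_eq bZ (inZ s hs)
    change Ff k ((clampPO (X s)).1, (clampPO (X s)).2, cut bZ (s * Y s)) = _
    rw [hz, hclamp s hs]
  set g : ℝ → ℝ := fun s => Y s * (Rf k (cut bZ (s * Y s)) (cut bO (o s)) / k - 1/2) with hgdef
  have hgc : Continuous g := by
    have e1 : Continuous fun s => cut bZ (s * Y s) :=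
      (cut_smooth bZ).continuous.comp (continuous_id.mul hYc)
    have e2 : Continuous fun s => cut bO (o s) := (cut_smooth bO).continuous.comp hoc
    refine hYc.mul ((Continuous.div_const ?_ k).sub continuous_const)
    simp only [Rf]
    refine Continuous.div ?_ (by fun_prop) fun s => by linarith [(cZ_mem (s * Y s)).1]
    exact (by fun_prop : Continuous fun s => 2 * cut bZ (s * Y s) + 2 * k + 3).add
      (((continuous_const.div e2 fun s => (cO_pos _).ne').sub continuous_const).mul continuous_const)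
  have dU : ∀ s ∈ box, HasDerivAt U (U s * g s) s := by
    intro s hs
    refine (hU s).congr_deriv ?_
    simp only [hf1, hgdef, hval s hs, Ff]
    rw [cut_eq bZ (inZ s hs), cut_eq bO (inO s hs), ← hYeq s hs]
    ring
  have do_ : ∀ s ∈ box,
      HasDerivAt o (-o s * (Y s * Rf k (s * Y s) (o s) - k / 2 * B s)) s := by
    intro s hs
    refine (ho' s).congr_deriv ?_
    have ho : o s ≠ 0 := by linarith [hs.2.1.1]
    simp only [hf2, hval s hs, Ff, hBdef, ← hYeq s hs]
    field_simp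
    ring
  have hsB : ∀ s ∈ box, s * B s = 1 / o s - 1 := by
    intro s hs
    have ho : o s ≠ 0 := by linarith [hs.2.1.1]
    have e : (X s).2 = s * A s := congrFun hX2 s
    simp only [hBdef, hodef, e] at ho ⊢
    field_simp
    ring
  have dY : ∀ s ∈ box, HasDerivAt Y (Y s * (B s - Y s) / 2) s := by
    intro s hs
    have ho : 0 < o s := by linarith [hs.2.1.1]
    have hev : Y =ᶠ[𝓝 s] fun t => U t * o t ^ (1 / k) := by
      filter_upwards [hboxo.mem_nhds hs] with t ht using hYeq t ht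
    refine (((dU s hs).mul ((do_ s hs).rpow_const (p := 1/k) (Or.inl ho.ne'))).congr_of_eventuallyEq
      hev).congr_deriv ?_
    rw [Real.rpow_sub_one ho.ne']
    simp only [hgdef, cut_eq bZ (inZ s hs), cut_eq bO (inO s hs)]
    rw [hYeq s hs]
    field_simp
    ring
  -- invariance of the closed region
  have key : ∀ T : ℝ, 0 ≤ T → (∀ t ∈ Icc 0 T, t ∈ box) → ∀ t ∈ Icc 0 T, t ∈ good :=
    fun T hT hbx => invariant_box hk hT (U := U) (o := o) (Y := Y) (B := B) (g := g)
      (by simp [hUdef, hX0]) (by simp [hodef, hX0]) hgc hYc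
      (fun t ht => (hbx t ht).2) (fun t ht => dU t (hbx t ht))
      (fun t ht => by simp only [hgdef, cut_eq bZ (inZ t (hbx t ht)), cut_eq bO (inO t (hbx t ht))])
      (fun t ht => hYeq t (hbx t ht)) (fun t ht => dY t (hbx t ht))
      (fun t ht => do_ t (hbx t ht)) (fun t ht => hsB t (hbx t ht))
  have hall : ∀ s, 0 ≤ s → s ∈ good := by
    intro S hS
    let Aset : Set ℝ := {T | ∀ r ∈ Icc (0:ℝ) 1, r * T ∈ good}
    have hAc : IsClosed Aset := by
      have : Aset = ⋂ r ∈ Icc (0:ℝ) 1, (fun T => r * T) ⁻¹' good := by ext; simp [Aset]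
      rw [this]
      exact isClosed_biInter fun r _ => hgoodc.preimage (by fun_prop)
    have h0A : (0:ℝ) ∈ Aset := by
      intro r _
      rw [mul_zero]
      refine ⟨?_, ?_, ?_, ?_⟩ <;> norm_num [hUdef, hodef, hX0]
    have hsub : Icc 0 S ⊆ Aset := by
      refine IsClosed.Icc_subset_of_forall_exists_gt (hAc.inter isClosed_Icc) h0A ?_
      rintro T ⟨hTA, hT0, hTS⟩ y hy
      have hTb : ∀ t ∈ Icc 0 T, t ∈ good := by
        intro t ht
        rcases eq_or_lt_of_le hT0 with h | h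
        · have : t = 1 * T := by linarith [ht.1, ht.2]
          rw [this]; exact hTA 1 ⟨zero_le_one, le_rfl⟩
        · have := hTA (t / T) ⟨div_nonneg ht.1 hT0, (div_le_one h).2 ht.2⟩
          rwa [div_mul_cancel₀ t h.ne'] at this
      obtain ⟨δ, hδ, hball⟩ := Metric.isOpen_iff.1 hboxo T (hgb (hTb T ⟨hT0, le_rfl⟩))
      have hy' : T < y := hy
      set T' := min y (T + δ / 2) with hT'
      have hT'lt : T < T' := lt_min hy' (by linarith)
      have hbx : ∀ t ∈ Icc 0 T', t ∈ box := by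
        intro t ht
        rcases le_total t T with h | h
        · exact hgb (hTb t ⟨ht.1, h⟩)
        · apply hball
          rw [Metric.mem_ball, Real.dist_eq, abs_of_nonneg (sub_nonneg.2 h)]
          linarith [ht.2, min_le_right y (T + δ / 2)]
      refine ⟨T', fun r hr => ?_, hT'lt, min_le_left _ _⟩
      have hT'0 : 0 ≤ T' := hT0.trans hT'lt.le
      exact key T' hT'0 hbx _ ⟨mul_nonneg hr.1 hT'0,
        mul_le_of_le_one_left hT'0 hr.2⟩
    have := hsub ⟨hS, le_rfl⟩ 1 ⟨zero_le_one, le_rfl⟩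
    rwa [one_mul] at this
  refine ⟨G, Y, B, o, hGs, by simp [hGdef], fun s => Real.exp_pos _, fun s hs => ?_⟩
  have hb := hgb (hall s hs)
  have ho : 0 < o s := by linarith [hb.2.1.1]
  refine ⟨?_, ho, hsB s hb, hGd s, dY s hb, do_ s hb⟩
  have hbx : ∀ t ∈ Icc 0 s, t ∈ box := fun t ht => hgb (hall t ht.1)
  -- positivity of U along the solution
  let E : ℝ → ℝ := fun t => U t * Real.exp (-∫ r in (0:ℝ)..t, g r)
  have hE : ∀ t ∈ Icc 0 s, HasDerivAt E 0 t := fun t ht =>
    ((dU t (hbx t ht)).mul ((hgc.integral_hasStrictDerivAt 0 t).hasDerivAt).neg.exp).congr_deriv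
      (by simp only [Pi.neg_apply]; ring)
  have h1 : E s = E 0 := constant_of_has_deriv_right_zero
    (fun t ht => (hE t ht).continuousAt.continuousWithinAt)
    (fun t ht => (hE t (Ico_subset_Icc_self ht)).hasDerivWithinAt) s ⟨hs, le_rfl⟩
  have h2 : E 0 = 1 := by simp [E, hUdef, hX0]
  have h3 : 0 < U s * Real.exp (-∫ r in (0:ℝ)..s, g r) := by
    change 0 < E s; rw [h1, h2]; exact one_pos
  rw [hYeq s hb]
  exact mul_pos (pos_of_mul_pos_left h3 (Real.exp_pos _).le) (Real.rpow_pos_of_pos ho _)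

end Vale.Agent.P252
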